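import Mathlib.Logic.Basic

/-
# P032, toolbox of helper242: programs for invariants of finite transition systems

Working notes only; this file proves nothing and nothing imports it.  It keeps the programs which found
and compressed the certificates of `P032.CommonColours` (see also `P032/H979/LockNotes.lean` for the
recipe and for what is left).  The programs are by helper293, helper979 (IC3, minimisation, Houdini),
helper470 (shared derivations with backward trimming), helper242 (incremental variant).  They need
only a C++17 compiler: copy each section into the file named in its header line,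
`g++ -O2 -std=c++17 -o pdr pdr.cpp` and so on.

In the program texts below @Q stands for the double quote character and @D for two hyphens in a row
(replace both before compiling).

## Format of a system (file .ts), variables 1..N, literals as in DIMACS
  v N                      number of variables
  l a b name               latch: a = current variable, b = next variable
  s lits 0                 clause true in every state (current variables), also assumed after the step
  i lits 0                 clause true in the initial states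
  t lits 0                 clause of the transition relation
  d k lits 0               the same, defining clause of variable k (kept out of the preprocessing)
  b lits 0                 clause of the bad condition (conjunction of the b clauses = bad)
An invariant is a list of clauses over the current variables.  `pdr X.ts X.inv SECONDS` with the
environment CTG (1, 3, 6, 12), CTGD (2, 3), SEED, LEMIN (files with clauses assumed to be inductive,
joined by a colon), LEMOUT (file for the learned clauses at a timeout).  `mininv X.ts X.inv X.min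
ROUNDS SEED SECONDS`: minimisation with cascade.  `hou2`: largest inductive subset of a pool of
clauses.  `blkopt in out SEEDS`: ONE derivation with hints of all clauses of the invariant after the
step (reverse unit propagation proofs for the kernel checker `R2/H805/Rup`, `Blk`).

## What I learned about the modelling (S2n, the base of the second certificate)
* Wrong anchor = no proof.  For a two-pair point z = ab|cd with an S4 contact w the systems with only
  the ring of z, or with the rings of z and of one cd-end y of z, have real loops; they die as soon as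
  the ring of the CONTACT w is added and all rings are anchored at the direction of w (root S2n:
  rings z, w; the hypothesis that the two places beside w do not both contain ab, and not both cd, is
  excluded first by two small systems with the ring of z alone and w fixed at slot 0: R2A, R2C).
* The rule of the classes (rule2) is needed at w only, the order of the first occurrences (y met
  before the turn ends) is one frozen bit.
* The unsplit system R2C (16 start words at once) has an invariant of 1207 clauses and is cheaper in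
  the kernel (305000 hints) than 16 certificates for the words.
* A word that resists one seeded run for 15 minutes usually closes unseeded with CTG = 1, or from the
  union of the invariants of the other words after `hou2`.
* Before searching, test the root at 5, 7, 9, 12 steps with bounded model checking and read the model:
  missing facts show up as a letter that flips without any named event.
* Kernel cost: 0.13 ms per hint, 8 ms per loaded fact and table; text: the masks dominate (N / 2 hex
  digits per clause), so put 250 to 1200 target clauses on one table.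

## FILE sat2.h
// compact CDCL solver with assumptions (MiniSat style)
#pragma once
#include <vector>
#include <cstdint>
#include <cstdio>
#include <cstdlib>
#include <algorithm>
#include <cmath>
#include <cassert>
using namespace std;
typedef int Lit; // 2v / 2v+1 (neg)
inline Lit mk(int v,bool neg){return 2*v+(neg?1:0);}
inline Lit neg(Lit l){return l^1;}
inline int var(Lit l){return l>>1;}
struct Solver{
  struct Clause{ uint32_t size; uint32_t learnt:1, lbd:31; float act; Lit lits[1]; };
  typedef uint32_t CRef; static constexpr CRef NIL=0xffffffffu;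
  vector<uint32_t> mem; // arena
  Clause& C(CRef r){return *(Clause*)&mem[r];}
  struct W{CRef c; Lit b;};
  vector<vector<W>> watches; vector<vector<W>> bw; vector<int8_t> assigns; // per var 0 undef,1 true,-1 false  => value(l)
  vector<int> level; vector<CRef> reason; vector<int8_t> phase; vector<double> activity; vector<int> heap, hpos; vector<char> seen; vector<char> dec;
  vector<Lit> trail; vector<int> lim; int qhead=0; vector<CRef> clauses, learnts; double vinc=1, cinc=1; bool ok=true; uint64_t conflicts=0,props=0,decisions=0; uint64_t wasted=0;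
  vector<Lit> assumptions, conflictv; vector<int8_t> model; vector<int> lvstamp; int stampc=0; size_t maxl=4000;
  int nVars(){return assigns.size();}
  int newVar(bool d=true){int v=nVars(); assigns.push_back(0); level.push_back(0); reason.push_back(NIL); phase.push_back(0); activity.push_back(0); hpos.push_back(-1); seen.push_back(0); dec.push_back(d); watches.emplace_back(); watches.emplace_back(); bw.emplace_back(); bw.emplace_back(); lvstamp.push_back(0); if(d) insertHeap(v); return v;}
  inline int val(Lit l){int a=assigns[l>>1]; return (l&1)?-a:a;}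
  // heap
  inline bool lt(int a,int b){return activity[a]>activity[b];}
  void up(int i){int x=heap[i];while(i>0){int p=(i-1)>>1; if(!lt(x,heap[p]))break; heap[i]=heap[p];hpos[heap[i]]=i;i=p;}heap[i]=x;hpos[x]=i;}
  void down(int i){int x=heap[i],n=heap.size();while(2*i+1<n){int c=2*i+1; if(c+1<n&&lt(heap[c+1],heap[c]))c++; if(!lt(heap[c],x))break; heap[i]=heap[c];hpos[heap[i]]=i;i=c;}heap[i]=x;hpos[x]=i;}
  void insertHeap(int v){if(hpos[v]>=0||!dec[v])return; hpos[v]=heap.size();heap.push_back(v);up(hpos[v]);}
  int removeMin(){int x=heap[0];heap[0]=heap.back();hpos[heap[0]]=0;hpos[x]=-1;heap.pop_back();if(heap.size()>1)down(0);return x;}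
  void bump(int v){if((activity[v]+=vinc)>1e100){for(auto&a:activity)a*=1e-100;vinc*=1e-100;} if(hpos[v]>=0)up(hpos[v]);}
  CRef alloc(const vector<Lit>&ls,bool learnt){uint32_t sz=ls.size(); uint32_t words=(sizeof(Clause)-sizeof(Lit))/4+sz; CRef r=mem.size(); mem.resize(r+words); Clause&c=C(r); c.size=sz;c.learnt=learnt;c.lbd=0;c.act=0; for(uint32_t i=0;i<sz;i++)c.lits[i]=ls[i]; return r;}
  void attach(CRef r){Clause&c=C(r); if(c.size==2){bw[neg(c.lits[0])].push_back({r,c.lits[1]}); bw[neg(c.lits[1])].push_back({r,c.lits[0]}); return;} watches[neg(c.lits[0])].push_back({r,c.lits[1]}); watches[neg(c.lits[1])].push_back({r,c.lits[0]});}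
  void enqueue(Lit l,CRef from){int v=l>>1; assigns[v]=(l&1)?-1:1; level[v]=lim.size(); reason[v]=from; trail.push_back(l);}
  bool addClause(vector<Lit> ls){
    if(!ok)return false; cancel(0); sort(ls.begin(),ls.end()); vector<Lit> o; Lit p=-1;
    for(Lit l:ls){ if(val(l)>0||l==(p^1))return true; if(val(l)==0&&l!=p){o.push_back(l);p=l;} }
    if(o.empty()){ok=false;return false;}
    if(o.size()==1){enqueue(o[0],NIL); ok=(propagate()==NIL); return ok;}
    CRef r=alloc(o,false); clauses.push_back(r); attach(r); return true;}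
  CRef propagate(){
    CRef confl=NIL;
    while(qhead<(int)trail.size()){
      Lit p=trail[qhead++]; props++;
      for(W&w:bw[p]){ int vv=val(w.b); if(vv>0)continue; Clause&c=C(w.c); if(c.lits[0]!=w.b){c.lits[1]=c.lits[0];c.lits[0]=w.b;} if(vv<0){confl=w.c;qhead=trail.size();return confl;} enqueue(w.b,w.c); }
      vector<W>&ws=watches[p]; size_t i=0,j=0,n=ws.size();
      for(;i<n;){
        W w=ws[i]; if(val(w.b)>0){ws[j++]=ws[i++];continue;}
        Clause&c=C(w.c); Lit fl=neg(p); if(c.lits[0]==fl){c.lits[0]=c.lits[1];c.lits[1]=fl;} i++;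
        Lit f=c.lits[0]; W nw={w.c,f}; if(f!=w.b&&val(f)>0){ws[j++]=nw;continue;}
        bool found=false; for(uint32_t k=2;k<c.size;k++) if(val(c.lits[k])>=0){c.lits[1]=c.lits[k];c.lits[k]=fl;watches[neg(c.lits[1])].push_back(nw);found=true;break;}
        if(found)continue;
        ws[j++]=nw; if(val(f)<0){confl=w.c;qhead=trail.size();while(i<n)ws[j++]=ws[i++];} else enqueue(f,w.c);
      }
      ws.resize(j);
    }
    return confl;}
  void cancel(int lv){ if((int)lim.size()>lv){ for(int c=trail.size()-1;c>=lim[lv];c@D){int v=trail[c]>>1; phase[v]=assigns[v]; assigns[v]=0; insertHeap(v);} qhead=lim[lv]; trail.resize(lim[lv]); lim.resize(lv);} }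
  vector<Lit> astack,toclear;
  bool redundant(Lit p,uint32_t ab){
    astack.clear(); astack.push_back(p); size_t top=toclear.size();
    while(!astack.empty()){ CRef r=reason[astack.back()>>1]; astack.pop_back(); Clause&c=C(r);
      for(uint32_t i=1;i<c.size;i++){Lit q=c.lits[i]; int v=q>>1; if(!seen[v]&&level[v]>0){ if(reason[v]!=NIL&&((1u<<(level[v]&31))&ab)){seen[v]=1;astack.push_back(q);toclear.push_back(q);} else {for(size_t j=top;j<toclear.size();j++)seen[toclear[j]>>1]=0; toclear.resize(top); return false;} } } }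
    return true;}
  void analyze(CRef confl,vector<Lit>&out,int&bt,int&lbd){
    int cnt=0; Lit p=-1; out.clear(); out.push_back(0); int idx=trail.size()-1;
    do{ Clause&c=C(confl); if(c.learnt) bumpC(c);
      for(uint32_t j=(p==-1?0:1);j<c.size;j++){Lit q=c.lits[j]; int v=q>>1; if(!seen[v]&&level[v]>0){bump(v);seen[v]=1; if(level[v]>=(int)lim.size())cnt++; else out.push_back(q);} }
      while(!seen[trail[idx@D]>>1]); p=trail[idx+1]; confl=reason[p>>1]; seen[p>>1]=0; cnt@D; 
      if(cnt>0){Clause&d=C(confl); if(d.lits[0]!=p){ // ensure p first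
          for(uint32_t k=1;k<d.size;k++) if(d.lits[k]==p){ swap(d.lits[0],d.lits[k]); abort(); } } }
    }while(cnt>0);
    out[0]=neg(p); toclear=out; uint32_t ab=0; for(size_t i=1;i<out.size();i++)ab|=1u<<(level[out[i]>>1]&31);
    size_t j=1; for(size_t i=1;i<out.size();i++) if(reason[out[i]>>1]==NIL||!redundant(out[i],ab)) out[j++]=out[i]; out.resize(j);
    if(out.size()==1)bt=0; else {size_t m=1; for(size_t i=2;i<out.size();i++) if(level[out[i]>>1]>level[out[m]>>1])m=i; swap(out[1],out[m]); bt=level[out[1]>>1];}
    stampc++; lbd=0; for(Lit l:out){int lv=level[l>>1]; if(lv<(int)lvstamp.size()&&lvstamp[lv]!=stampc){lvstamp[lv]=stampc;lbd++;}}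
    for(Lit l:toclear)seen[l>>1]=0; }
  void bumpC(Clause&c){ if((c.act+=cinc)>1e20){for(CRef r:learnts)C(r).act*=1e-20;cinc*=1e-20;} }
  void analyzeFinal(Lit p){ conflictv.clear(); conflictv.push_back(p); if(lim.empty())return; seen[p>>1]=1;
    for(int i=trail.size()-1;i>=lim[0];i@D){int v=trail[i]>>1; if(seen[v]){ if(reason[v]==NIL){ if(v!=(p>>1)||true) conflictv.push_back(neg(trail[i])); } else {Clause&c=C(reason[v]); for(uint32_t j=1;j<c.size;j++) if(level[c.lits[j]>>1]>0)seen[c.lits[j]>>1]=1;} seen[v]=0;} }
    seen[p>>1]=0; }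
  void detachAll(CRef r){ Clause&c=C(r); for(int k=0;k<2;k++){auto&ws=watches[neg(c.lits[k])]; size_t j=0; for(size_t i=0;i<ws.size();i++) if(ws[i].c!=r) ws[j++]=ws[i]; ws.resize(j);} }
  bool locked(CRef r){Clause&c=C(r); return val(c.lits[0])>0&&reason[c.lits[0]>>1]==r;}
  void reduceDB(){ sort(learnts.begin(),learnts.end(),[&](CRef a,CRef b){Clause&x=C(a),&y=C(b); bool xb=x.size==2||x.lbd<=2,yb=y.size==2||y.lbd<=2; if(xb!=yb)return yb; return x.act<y.act;});
    size_t n=learnts.size(),j=0; vector<char> dummy; vector<CRef> keep,del; for(size_t i=0;i<n;i++){CRef r=learnts[i];Clause&c=C(r); if(i<n/2&&c.size>2&&c.lbd>2&&!locked(r)) del.push_back(r); else keep.push_back(r);} 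
    for(CRef r:del){C(r).lbd=0x7fffffff;}
    for(auto&ws:watches){size_t j=0; for(size_t i=0;i<ws.size();i++){ Clause&c=C(ws[i].c); if(!(c.learnt&&c.lbd==0x7fffffff)) ws[j++]=ws[i];} ws.resize(j);} 
    for(CRef r:del) wasted+=C(r).size+3; learnts=keep; (void)j;
    if(wasted>mem.size()/3+100000) gc(); }
  void gc(){ vector<uint32_t> nm; nm.reserve(mem.size()-wasted/2+16); vector<pair<CRef,CRef>> mp; auto mv=[&](CRef&r){Clause&c=C(r); uint32_t words=(sizeof(Clause)-sizeof(Lit))/4+c.size; CRef nr=nm.size(); nm.insert(nm.end(),mem.begin()+r,mem.begin()+r+words); mp.push_back({r,nr}); r=nr;};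
    for(auto&r:clauses)mv(r); for(auto&r:learnts)mv(r); sort(mp.begin(),mp.end()); auto look=[&](CRef r){auto it=lower_bound(mp.begin(),mp.end(),make_pair(r,(CRef)0)); return it->second;};
    for(auto&ws:watches)for(auto&w:ws)w.c=look(w.c); for(auto&ws:bw)for(auto&w:ws)w.c=look(w.c); for(Lit l:trail){int v=l>>1; if(reason[v]!=NIL){ if(level[v]==0) reason[v]=NIL; else reason[v]=look(reason[v]);}} mem.swap(nm); wasted=0; }
  bool simplifyNeeded=false; size_t lastTrail0=0;
  void simplify(){ // remove satisfied clauses at level 0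
    cancel(0); if(!ok)return; if(propagate()!=NIL){ok=false;return;} if(trail.size()==lastTrail0)return; lastTrail0=trail.size();
    for(Lit l:trail) reason[l>>1]=NIL;
    auto sat=[&](CRef r){Clause&c=C(r); for(uint32_t i=0;i<c.size;i++) if(val(c.lits[i])>0)return true; return false;};
    vector<CRef>*vs[2]={&clauses,&learnts}; vector<char> m; 
    for(auto*v:vs){size_t j=0; for(CRef r:*v){ if(sat(r)){ C(r).act=-1; wasted+=C(r).size+3; } else (*v)[j++]=r;} v->resize(j);} 
    for(auto&ws:watches){size_t j=0; for(size_t i=0;i<ws.size();i++) if(C(ws[i].c).act!=-1.0f) ws[j++]=ws[i]; ws.resize(j);} 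
    for(auto&ws:bw){size_t j=0; for(size_t i=0;i<ws.size();i++) if(C(ws[i].c).act!=-1.0f) ws[j++]=ws[i]; ws.resize(j);} 
    if(wasted>mem.size()/3+100000) gc(); }
  static double luby(double y,int x){int size,seq; for(size=1,seq=0;size<x+1;seq++,size=2*size+1); while(size-1!=x){size=(size-1)>>1;seq@D;x=x%size;} return pow(y,seq);}
  // returns 1 sat, 0 unsat, -1 budget
  int64_t budget=-1;
  int solve(const vector<Lit>&as){
    assumptions=as; conflictv.clear(); cancel(0); if(!ok)return 0; int rest=0; int64_t start=conflicts;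
    while(true){ int lim_=luby(2,rest++)*100; int r=search(lim_); if(r>=0){ if(r==1){model=assigns;} cancel(0); return r;} if(budget>=0&&(int64_t)conflicts-start>budget){cancel(0);return -1;} } }
  int search(int nof){ int cc=0; vector<Lit> lc; 
    while(true){ CRef confl=propagate();
      if(confl!=NIL){ conflicts++;cc++; if(lim.empty()){ok=false;return 0;} int bt,lbd; analyze(confl,lc,bt,lbd); cancel(bt);
        if(lc.size()==1) enqueue(lc[0],NIL); else {CRef r=alloc(lc,true); C(r).lbd=lbd; learnts.push_back(r); attach(r); bumpC(C(r)); enqueue(lc[0],r);} 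
        vinc*=1/0.95; cinc*=1/0.999;
      } else {
        if(cc>=nof){cancel(0);return -1;}
        if(learnts.size()>maxl+trail.size()/4){ reduceDB(); maxl=maxl*1.05; }
        Lit nx=-2; while(lim.size()<assumptions.size()){Lit p=assumptions[lim.size()]; int v=val(p); if(v>0)lim.push_back(trail.size()); else if(v<0){analyzeFinal(neg(p));return 0;} else {nx=p;break;}}
        if(nx==-2){ int v=-1; while(v<0||assigns[v]!=0){ if(heap.empty()){v=-1;break;} v=removeMin(); } if(v<0) return 1; decisions++; nx=mk(v,phase[v]<=0); }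
        lim.push_back(trail.size()); enqueue(nx,NIL);
      } } }
};

## FILE pdr.cpp
#include @Qsat2.h@Q
#include <set>
#include <map>
#include <queue>
#include <string>
#include <cstring>
#include <fstream>
#include <sstream>
#include <iostream>
#include <chrono>
#include <unordered_map>
using namespace std;
typedef vector<int> Cube; // latch literals 2*i+sign sorted
static double now(){return chrono::duration<double>(chrono::steady_clock::now().time_since_epoch()).count();}
int NV; vector<int> cur,nxt; vector<string> lname; int NL;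
struct CL{vector<Lit> l; int def;};
vector<CL> T,B; vector<vector<Lit>> I,SC,LEM; vector<int> latchOfCur; 
Lit L2(int x){return x>0?mk(x,false):mk(-x,true);} 
void readTS(const char*fn){ ifstream f(fn); string ln; while(getline(f,ln)){ if(ln.empty()||ln[0]=='#')continue; istringstream s(ln.substr(1)); char c=ln[0];
   if(c=='v'){s>>NV;} else if(c=='l'){int a,b;string nm;s>>a>>b>>nm;cur.push_back(a);nxt.push_back(b);lname.push_back(nm);} else {CL x; x.def=-1; int d; if(c=='d'){s>>d;x.def=d;} int y; while(s>>y){ if(y==0)break; x.l.push_back(L2(y)); } if(c=='t'||c=='d')T.push_back(x); else if(c=='b')B.push_back(x); else if(c=='i')I.push_back(x.l); else if(c=='s')SC.push_back(x.l); } }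
  if(getenv(@QLEMIN@Q)){ string fs_=getenv(@QLEMIN@Q); istringstream ls(fs_); string one; int n=0; while(getline(ls,one,':')){ ifstream g(one); string l2; while(getline(g,l2)){ istringstream s(l2); vector<Lit> c; int y; while(s>>y){if(!y)break;c.push_back(L2(y));} if(!c.empty()){SC.push_back(c); LEM.push_back(c); n++;} } } fprintf(stderr,@Qlemmas %d\n@Q,n); }
  NL=cur.size(); latchOfCur.assign(NV+1,-1); for(int i=0;i<NL;i++)latchOfCur[cur[i]]=i; }
// preprocessing of T: units, BVE on aux variables, subsumption
typedef vector<Lit> VC;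
void preprocess(){ double q0=now(); vector<char> fr(NV+1,0); for(int i=0;i<NL;i++)fr[cur[i]]=fr[nxt[i]]=1; for(auto&c:T)if(c.def>=0)for(Lit l:c.l)fr[l>>1]=1; for(auto&c:SC)for(Lit l:c)fr[l>>1]=1; for(auto&c:I)for(Lit l:c)fr[l>>1]=1; 
  vector<VC> C; vector<CL> keep; for(auto&c:T){ if(c.def>=0)keep.push_back(c); else {VC v=c.l; sort(v.begin(),v.end()); v.erase(unique(v.begin(),v.end()),v.end()); bool taut=false; for(size_t i=1;i<v.size();i++)if(v[i]==(v[i-1]^1))taut=true; if(!taut)C.push_back(v);} }
  // unit propagation with SC units too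
  vector<int8_t> val(2*(NV+1),0); vector<Lit> q; auto setl=[&](Lit l){ if(val[l]>0)return; if(val[l]<0){fprintf(stderr,@QT unsat\n@Q);exit(0);} val[l]=1;val[l^1]=-1;q.push_back(l);}; 
  for(auto&c:SC)if(c.size()==1)setl(c[0]);
  bool ch=true; while(ch){ ch=false; for(auto&c:C){ if(c.empty())continue; size_t j=0; bool sat=false; for(size_t i=0;i<c.size();i++){ if(val[c[i]]>0){sat=true;break;} if(val[c[i]]==0)c[j++]=c[i]; } if(sat){c.clear();continue;} if(j!=c.size()){c.resize(j);} if(c.size()==0){fprintf(stderr,@QT unsat\n@Q);exit(0);} if(c.size()==1){setl(c[0]);c.clear();ch=true;} } }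
  vector<VC> D; for(auto&c:C)if(!c.empty())D.push_back(c); C.swap(D); D.clear();
  for(Lit l:q) C.push_back({l}); 
  vector<vector<int>> occ(2*(NV+1)); vector<char> dead(C.size(),0); vector<uint64_t> sig(C.size()); auto sg=[&](const VC&c){uint64_t x=0; for(Lit l:c)x|=1ull<<((l*2654435761u>>20)&63); return x;};
  for(size_t i=0;i<C.size();i++){ sig[i]=sg(C[i]); if(C[i].size()>1)for(Lit l:C[i])occ[l].push_back(i);} 
  auto backsub=[&](int i){ // remove clauses subsumed by i; strengthen
     Lit b=C[i][0]; for(Lit l:C[i]) if(occ[l].size()<occ[b].size())b=l; 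
     if(occ[b].size()>3000)return; for(int j:occ[b]) if(j!=i&&!dead[j]&&C[j].size()>=C[i].size()&&(sig[i]&~sig[j])==0&&includes(C[j].begin(),C[j].end(),C[i].begin(),C[i].end())) dead[j]=1; };
  for(size_t i=0;i<C.size();i++) if(!dead[i]&&C[i].size()>1) backsub(i);
  // eliminate
  int elim=0; for(int round=0;round<3;round++){ vector<pair<long,int>> o; for(int v=1;v<=NV;v++) if(!fr[v]&&val[2*v]==0){ long a=0,b=0; for(int i:occ[2*v])if(!dead[i])a++; for(int i:occ[2*v+1])if(!dead[i])b++; if(a+b==0)continue; if(a*b<=600||a==0||b==0) o.push_back({a*b,v}); }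
    sort(o.begin(),o.end()); int e0=elim; for(auto&pr:o){ int v=pr.second; vector<int> P,N; for(int i:occ[2*v])if(!dead[i])P.push_back(i); for(int i:occ[2*v+1])if(!dead[i])N.push_back(i); if(P.empty()&&N.empty())continue; if((long)P.size()*N.size()>600)continue; vector<VC> R; bool over=false; size_t lim=P.size()+N.size(); 
      for(int a:P){ for(int b:N){ VC r; r.reserve(C[a].size()+C[b].size()); bool taut=false; size_t i=0,j=0; const VC&x=C[a],&y=C[b]; while(i<x.size()||j<y.size()){ Lit l; if(j>=y.size()||(i<x.size()&&x[i]<y[j]))l=x[i++]; else if(i>=x.size()||y[j]<x[i])l=y[j++]; else {l=x[i];i++;j++;} if((l>>1)==v)continue; if(!r.empty()&&r.back()==(l^1)){taut=true;break;} r.push_back(l);} if(taut)continue; if(r.size()>14){over=true;break;} R.push_back(r); if(R.size()>lim){over=true;break;} } if(over)break; }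
      if(over)continue; for(int i:P)dead[i]=1; for(int i:N)dead[i]=1; elim++; fr[v]=2; for(auto&r:R){ bool dup=false; Lit b=r[0]; for(Lit l:r)if(occ[l].size()<occ[b].size())b=l; uint64_t s=sg(r); for(int j:occ[b]) if(!dead[j]&&C[j].size()<=r.size()&&(sig[j]&~s)==0&&includes(r.begin(),r.end(),C[j].begin(),C[j].end())){dup=true;break;} if(dup)continue; int id=C.size(); C.push_back(r); dead.push_back(0); sig.push_back(s); if(r.size()>1)for(Lit l:r)occ[l].push_back(id); else {fprintf(stderr,@Qunit in bve\n@Q);} if(r.size()>1)backsub(id);} 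
    } if(elim==e0)break; for(auto&ov:occ){ size_t j=0; for(int i:ov)if(!dead[i])ov[j++]=i; ov.resize(j);} }
  size_t before=T.size(); T=keep; for(size_t i=0;i<C.size();i++)if(!dead[i]){CL c; c.def=-1; c.l=C[i]; T.push_back(c);} 
  fprintf(stderr,@Qpreprocess: T %zu -> %zu, eliminated %d vars, time %.1f\n@Q,before,T.size(),elim,now()-q0); }
// gate detection: gate outputs are not decision variables
vector<char> isGate;
void detectGates(){ isGate.assign(NV+1,0); vector<char> lat(NV+1,0); for(int i=0;i<NL;i++)lat[cur[i]]=lat[nxt[i]]=1; set<pair<int,int>> bin; auto addb=[&](const vector<Lit>&l){ if(l.size()==2){ bin.insert({l[0],l[1]}); bin.insert({l[1],l[0]}); } }; for(auto&c:T)if(c.def<0)addb(c.l); for(auto&c:SC)addb(c);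
  int n=0; for(auto&c:T){ if(c.def>=0||c.l.size()<3)continue; int mx=-1; Lit g=-1; for(Lit l:c.l) if((l>>1)>mx){mx=l>>1;g=l;} if(lat[mx]||isGate[mx])continue; bool ok=true; for(Lit l:c.l) if(l!=g){ if(!bin.count({neg(g),neg(l)})){ok=false;break;} } if(ok){isGate[mx]=1;n++;} }
  // equivalences g=x
  for(auto&c:T){ if(c.def>=0||c.l.size()!=2)continue; int mx=-1; Lit g=-1,o=-1; for(Lit l:c.l) if((l>>1)>mx){mx=l>>1;g=l;} for(Lit l:c.l) if(l!=g)o=l; if(lat[mx]||isGate[mx]||o<0)continue; if(bin.count({neg(g),neg(o)})){isGate[mx]=1;n++;} }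
  fprintf(stderr,@Qgates %d\n@Q,n); }
// solvers
struct Sol{ Solver S; vector<int> act; int temps=0; };
Sol*ST=0,*SB=0,*SI=0; vector<vector<Cube>> F; vector<Cube> Finf; int K=0; double tS=0,tL=0,tI=0,tB=0; long nq=0,ncti=0,nmic=0; double tlim=1e18,t0;
int actVar(Sol*s,int i){ while((int)s->act.size()<=i) s->act.push_back(s->S.newVar()); return s->act[i]; }
void base(Sol*s){ for(int i=0;i<=NV;i++) s->S.newVar(true); }
Lit curLit(int c){return mk(cur[c>>1],c&1);} Lit nxtLit(int c){return mk(nxt[c>>1],c&1);} 
vector<Lit> negCube(const Cube&c){vector<Lit> r; for(int x:c)r.push_back(neg(curLit(x))); return r;}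
void markDec(Sol*s,const vector<char>&occ){ for(int v=0;v<=NV;v++) s->S.dec[v]=occ[v]&&!isGate[v]; }
void buildST(){ double q0=now(); struct G{double q;~G(){tB+=now()-q;}}g{q0}; if(ST)delete ST; ST=new Sol; base(ST); vector<char> occ(NV+1,0); for(auto&c:T)for(Lit l:c.l)occ[l>>1]=1; for(int i=0;i<NL;i++)occ[cur[i]]=occ[nxt[i]]=1; for(auto&c:I)for(Lit l:c)occ[l>>1]=1; for(auto&c:SC)for(Lit l:c)occ[l>>1]=1; markDec(ST,occ);
  for(auto&c:SC)ST->S.addClause(c); for(auto&c:T)ST->S.addClause(c.l); int a0=actVar(ST,0); for(auto c:I){c.push_back(mk(a0,true));ST->S.addClause(c);} 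
  for(size_t i=1;i<F.size();i++){int a=actVar(ST,i); for(auto&c:F[i]){auto l=negCube(c); l.push_back(mk(a,true)); ST->S.addClause(l);} } for(auto&c:Finf)ST->S.addClause(negCube(c)); }
void buildSB(){ if(SB)delete SB; SB=new Sol; base(SB); vector<char> occ(NV+1,0); for(auto&c:B)for(Lit l:c.l)occ[l>>1]=1; for(int i=0;i<NL;i++)occ[cur[i]]=1; for(auto&c:SC)for(Lit l:c)occ[l>>1]=1; markDec(SB,occ); for(auto&c:B)SB->S.addClause(c.l); for(auto&c:SC)SB->S.addClause(c);
  for(size_t i=1;i<F.size();i++){int a=actVar(SB,i); for(auto&c:F[i]){auto l=negCube(c); l.push_back(mk(a,true)); SB->S.addClause(l);} } for(auto&c:Finf)SB->S.addClause(negCube(c)); }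
void buildSI(){ SI=new Sol; base(SI); vector<char> occ(NV+1,0); for(auto&c:I)for(Lit l:c)occ[l>>1]=1; for(int i=0;i<NL;i++)occ[cur[i]]=1; markDec(SI,occ); for(auto&c:I)SI->S.addClause(c); }
bool initInter(const Cube&c){ double q0=now(); struct G{double q;~G(){tI+=now()-q;}}g{q0};  vector<Lit> as; for(int x:c)as.push_back(curLit(x)); return SI->S.solve(as)==1; }
// covering lift; vals from model of solver s; clauses list; active defs
vector<vector<int>> dummy;
Cube lift(Solver&S,vector<CL>&cls,const vector<char>&defOn){ 
  static vector<char> ch; ch.assign(NL,0); vector<int> pend; auto&m=S.model; static vector<pair<int,vector<int>>> later; later.clear(); auto tv=[&](Lit l){return (l&1)?m[l>>1]<0:m[l>>1]>0;};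
  for(auto&c:cls){ if(c.def>=0&&!defOn[c.def])continue; bool sat=false; int cnt=0; int one=-1; for(Lit l:c.l){ if(tv(l)){ int la=latchOfCur[l>>1]; if(la<0){sat=true;break;} if(ch[la]){sat=true;break;} cnt++; one=la; } }
    if(sat)continue; if(cnt==1)ch[one]=1; else if(cnt>1){ pend.push_back(&c-&cls[0]); } else { fprintf(stderr,@Qlift: unsat clause\n@Q); } }
  // greedy on pending
  vector<vector<int>> P; vector<int> score(NL,0); for(int ci:pend){auto&c=cls[ci]; bool sat=false; vector<int> o; for(Lit l:c.l) if(tv(l)){int la=latchOfCur[l>>1]; if(ch[la]){sat=true;break;} o.push_back(la);} if(!sat){P.push_back(o); for(int x:o)score[x]++;} }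
  sort(P.begin(),P.end(),[](const vector<int>&a,const vector<int>&b){return a.size()<b.size();});
  for(auto&o:P){ bool sat=false; int b=-1; for(int x:o){ if(ch[x]){sat=true;break;} if(b<0||score[x]>score[b])b=x;} if(!sat)ch[b]=1; }
  Cube r; for(int i=0;i<NL;i++) if(ch[i]) r.push_back(2*i+(m[cur[i]]>0?0:1)); return r; }
// relative induction query. returns 1 if SAT (pred in pred), 0 unsat (core)
int rel(const Cube&c,int lev,bool useNeg,Cube*core,Cube*pred){
  nq++; if(ST->temps>3000){ buildST(); }
  vector<Lit> as; int tv=-1; if(useNeg){ tv=ST->S.newVar(); ST->temps++; auto l=negCube(c); l.push_back(mk(tv,true)); ST->S.addClause(l); as.push_back(mk(tv,false)); }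
  for(int j=lev;j<(int)F.size();j++) as.push_back(mk(actVar(ST,j),false));
  size_t na=as.size(); unordered_map<int,int> back; for(int x:c){Lit l=nxtLit(x); back[l]=x; as.push_back(l);} (void)na;
  double q0=now(); int r=ST->S.solve(as); tS+=now()-q0;
  if(r==1){ if(pred){ vector<char> on(NL,0); for(int x:c)on[x>>1]=1; double q1=now(); *pred=lift(ST->S,T,on); tL+=now()-q1;} }
  else if(core){ core->clear(); for(Lit l:ST->S.conflictv){auto it=back.find(neg(l)); if(it!=back.end())core->push_back(it->second);} sort(core->begin(),core->end()); core->erase(unique(core->begin(),core->end()),core->end()); }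
  if(tv>=0){ ST->S.addClause({mk(tv,true)}); if(ST->temps%400==0)ST->S.simplify(); }
  return r; }
bool fixInit(Cube&core,const Cube&full){ // ensure core does not intersect init, by adding literals of full
  if(!initInter(core)) return true; 
  // add literals: use SI final conflict on full cube
  vector<Lit> as; for(int x:full)as.push_back(curLit(x)); int r=SI->S.solve(as); if(r==1)return false; set<int> s(core.begin(),core.end()); for(Lit l:SI->S.conflictv){ for(int x:full) if(curLit(x)==neg(l)) s.insert(x);} core.assign(s.begin(),s.end()); return true; }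
vector<double> act_; // literal activity for ordering
int ctgMax=getenv(@QCTG@Q)?atoi(getenv(@QCTG@Q)):3, ctgDepth=getenv(@QCTGD@Q)?atoi(getenv(@QCTGD@Q)):1;
bool down(Cube&c,int lev,int depth,const set<int>&req);
void addBlocked(const Cube&c,int lev);
void mic(Cube&c,int lev,int depth){
  nmic++; vector<int> order(c.begin(),c.end()); sort(order.begin(),order.end(),[&](int a,int b){return act_[a]<act_[b];}); set<int> req; int fails=0;
  for(int x:order){ if(!binary_search(c.begin(),c.end(),x))continue; if(c.size()<=1)break; Cube d; for(int y:c)if(y!=x)d.push_back(y); if(initInter(d)){req.insert(x);continue;} if(down(d,lev,depth,req)){ c=d; } else { req.insert(x); fails++; } if(fails>60&&depth>1)break; }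
  for(int x:c) act_[x]+=1.0; }
bool down(Cube&c,int lev,int depth,const set<int>&req){ int ctgs=0; 
  while(true){ Cube core,pred; int r=rel(c,lev-1,true,&core,depth<=ctgDepth?&pred:0); if(r==0){ Cube full=c; if(!fixInit(core,full))return false; c=core; return true; }
    if(depth>ctgDepth) return false; 
    // CTG
    if(ctgs<ctgMax&&lev>1&&!pred.empty()&&!initInter(pred)){ Cube cc; int r2=rel(pred,lev-2,true,&cc,0); if(r2==0){ ctgs++; Cube full=pred; if(!fixInit(cc,full))return false; int i=lev-1; while(i<K){ Cube c3; if(rel(cc,i,true,&c3,0)==0)i++; else break; } mic(cc,i,depth+1); addBlocked(cc,i); continue; } }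
    return false; } }
bool subsumes(const Cube&a,const Cube&b){ if(a.size()>b.size())return false; return includes(b.begin(),b.end(),a.begin(),a.end()); }
void addBlocked(const Cube&c,int lev){ for(int i=1;i<=lev;i++){ size_t j=0; for(size_t k=0;k<F[i].size();k++) if(!subsumes(c,F[i][k])) { if(j!=k) F[i][j]=F[i][k]; j++; } F[i].resize(j);} 
  F[lev].push_back(c); auto l=negCube(c); auto l1=l; l1.push_back(mk(actVar(ST,lev),true)); ST->S.addClause(l1); auto l2=l; l2.push_back(mk(actVar(SB,lev),true)); SB->S.addClause(l2); }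
struct Obl{int lev; Cube c; int depth; int parent; };
vector<Obl> obs; 
struct Cmp{bool operator()(int a,int b){ if(obs[a].lev!=obs[b].lev)return obs[a].lev>obs[b].lev; if(obs[a].depth!=obs[b].depth) return obs[a].depth<obs[b].depth; return a<b; }};
string show(const Cube&c){ string s; for(int x:c){ s+=(x&1)?@Q-@Q:@Q@Q; s+=lname[x>>1]; s+=@Q @Q;} return s; }
double lastp=0; void prog(){ if(now()-lastp>10){lastp=now(); fprintf(stderr,@Q{S %.0f L %.0f I %.0f B %.0f} @Q,tS,tL,tI,tB); fprintf(stderr,@Q[%.0f] K=%d q=%ld cti=%ld mic=%ld F:@Q,now()-t0,K,nq,ncti,nmic); for(size_t i=1;i<F.size();i++)fprintf(stderr,@Q %zu@Q,F[i].size()); double as=0;int an=0; for(size_t i=1;i<F.size();i++)for(auto&c:F[i]){as+=c.size();an++;} fprintf(stderr,@Q avg %.1f@Q,an?as/an:0.0); if(getenv(@QDUMP@Q)){ofstream o(getenv(@QDUMP@Q)); for(size_t i=1;i<F.size();i++)for(auto&c:F[i]){o<<i<<@Q: @Q; for(int x:c)o<<((x&1)?@Q-@Q:@Q@Q)<<lname[x>>1]<<@Q @Q; o<<@Q\n@Q;}} fprintf(stderr,@Q confl=%lu vars=%d\n@Q,(unsigned long)ST->S.conflicts,ST->S.nVars()); if(now()-t0>tlim){ if(getenv(@QLEMOUT@Q)){ofstream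 o(getenv(@QLEMOUT@Q)); for(size_t i=2;i<F.size();i++)for(auto&c:F[i]){ for(int x:c)o<<((x&1)?@Q@Q:@Q-@Q)<<cur[x>>1]<<@Q @Q; o<<@Q0\n@Q;}} fprintf(stderr,@QTIMEOUT\n@Q); printf(@QTIMEOUT\n@Q); exit(3);} } }
int cex=-1;
bool blocked(const Cube&c,int lev){ for(size_t i=lev;i<F.size();i++)for(auto&d:F[i])if(subsumes(d,c))return true; return false; }
bool block(Cube c0,int lev){ priority_queue<int,vector<int>,Cmp> q; obs.clear(); obs.push_back({lev,c0,0,-1}); q.push(0);
  while(!q.empty()){ prog(); int id=q.top(); Obl o=obs[id]; 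
    if(o.lev==0||initInter(o.c)){ cex=id; return false; }
    if(blocked(o.c,o.lev)){ q.pop(); if(o.lev<K){ obs.push_back({o.lev+1,o.c,o.depth,o.parent}); q.push(obs.size()-1);} continue; }
    Cube core,pred; int r=rel(o.c,o.lev-1,true,&core,&pred);
    if(r==0){ q.pop(); Cube full=o.c; fixInit(core,full); int i=o.lev; mic(core,i,1); while(i<K){ Cube c3; if(rel(core,i,true,&c3,0)==0){i++;} else break; } addBlocked(core,i); if(i<K){ obs.push_back({i+1,o.c,o.depth,o.parent}); q.push(obs.size()-1);} }
    else { ncti++; obs.push_back({o.lev-1,pred,o.depth+1,id}); q.push(obs.size()-1); }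
  }
  return true; }
bool getBad(Cube&c){ if(SB->S.learnts.size()>200000) buildSB(); vector<Lit> as; for(int j=K;j<(int)F.size();j++) as.push_back(mk(actVar(SB,j),false)); int r=SB->S.solve(as); if(r==0)return false; vector<char> on(NL,1); c=lift(SB->S,B,on); return true; }
int main(int argc,char**argv){ readTS(argv[1]); t0=now(); if(!getenv(@QNOPRE@Q))preprocess(); detectGates(); { vector<char> oc(NV+1,0); int n=0; for(auto&c:T)for(Lit l:c.l)oc[l>>1]=1; for(int i=1;i<=NV;i++)n+=oc[i]; fprintf(stderr,@Qvars in T %d\n@Q,n);}  if(argc>3)tlim=atof(argv[3]); act_.assign(2*NL,0); if(getenv(@QSEED@Q)){srand(atoi(getenv(@QSEED@Q))); for(auto&a:act_)a=0.9*rand()/RAND_MAX;} fprintf(stderr,@Qlatches %d vars %d T %zu B %zu I %zu\n@Q,NL,NV,T.size(),B.size(),I.size());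
  F.resize(2); buildST(); buildSB(); buildSI(); if(!SI->S.ok){printf(@Qinit empty\n@Q);return 0;}
  // zero step: init & bad
  { Solver Z; for(int i=0;i<=NV;i++)Z.newVar(); for(auto&c:SC)Z.addClause(c); for(auto&c:B)Z.addClause(c.l); for(auto&c:I)Z.addClause(c); if(Z.solve({})==1){printf(@QCEX length 0\n@Q);return 1;} }
  K=1; 
  while(true){ Cube b; while(getBad(b)){ ncti++; prog(); if(!block(b,K)){ printf(@QCEX\n@Q); int id=cex; int n=0; while(id>=0){ printf(@Qstep %d: %s\n@Q,n++,show(obs[id].c).c_str()); id=obs[id].parent; } return 1; } }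
    // propagate
    K++; F.resize(K+1); 
    for(int i=1;i<K;i++){ vector<Cube> cs=F[i]; for(auto&c:cs){ bool still=false; for(auto&d:F[i]) if(d==c){still=true;break;} if(!still)continue; Cube core; prog(); if(rel(c,i,false,&core,0)==0){ Cube full=c; if(!fixInit(core,full))core=full; for(size_t k=0;k<F[i].size();k++)if(F[i][k]==c){F[i].erase(F[i].begin()+k);break;} addBlocked(core.size()<c.size()?core:c,i+1); } }
      if(F[i].empty()){ printf(@QPROVED K=%d\n@Q,i); int n=0; for(size_t j=i+1;j<F.size();j++)n+=F[j].size(); printf(@Qinvariant clauses %d\n@Q,n); if(argc>2){ofstream o(argv[2]); for(size_t j=i+1;j<F.size();j++)for(auto&c:F[j]){ for(int x:c)o<<((x&1)?@Q@Q:@Q-@Q)<<cur[x>>1]<<@Q @Q; o<<@Q0\n@Q; } for(auto&c:LEM){ for(Lit l:c)o<<((l&1)?@Q-@Q:@Q@Q)<<(l>>1)<<@Q @Q; o<<@Q0\n@Q; } } fprintf(stderr,@Qtime %.1f queries %ld\n@Q,now()-t0,nq); return 0; } }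
    fprintf(stderr,@Q[%.1f] K=%d q=%ld F:@Q,now()-t0,K,nq); for(size_t i=1;i<F.size();i++)fprintf(stderr,@Q %zu@Q,F[i].size()); fprintf(stderr,@Q\n@Q); for(auto&a:act_)a*=0.9; buildST(); buildSB(); }
}

## FILE mininv.cpp
// minimal inductive subset of an invariant. usage: mininv in.ts in.inv out.inv rounds
#include @Qsat2.h@Q
#include <string>
#include <fstream>
#include <sstream>
#include <set>
#include <map>
#include <iostream>
#include <random>
#include <chrono>
using namespace std;
static double now(){return chrono::duration<double>(chrono::steady_clock::now().time_since_epoch()).count();}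
int NV; vector<int> cur,nxt; map<int,int> nx; typedef vector<Lit> VC; vector<VC> T,B,I,S,D; 
Lit L2(int x){return x>0?mk(x,false):mk(-x,true);} 
int main(int argc,char**argv){ ifstream f(argv[1]); string ln; while(getline(f,ln)){ if(ln.empty())continue; istringstream s(ln.substr(1)); char c=ln[0]; if(c=='v'){s>>NV;} else if(c=='l'){int a,b;s>>a>>b;cur.push_back(a);nxt.push_back(b);nx[a]=b;} else {int d;if(c=='d')s>>d; VC v;int y; while(s>>y){if(!y)break;v.push_back(L2(y));} if(c=='t'||c=='d')T.push_back(v); else if(c=='b')B.push_back(v); else if(c=='i')I.push_back(v); else if(c=='s')S.push_back(v);} }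
  vector<VC> inv; ifstream g(argv[2]); while(getline(g,ln)){ istringstream s(ln); int y; VC v; while(s>>y){if(!y)break;v.push_back(L2(y));} if(!v.empty())inv.push_back(v);} int n=inv.size(); int rounds=argc>4?atoi(argv[4]):5; double t0=now();
  Solver Q; for(int i=0;i<=NV;i++)Q.newVar(); for(auto&c:T)Q.addClause(c); for(auto&c:S)Q.addClause(c); vector<int> sel(n); for(int i=0;i<n;i++){sel[i]=Q.newVar(); VC c=inv[i]; c.push_back(mk(sel[i],true)); Q.addClause(c);} 
  Solver Z; for(int i=0;i<=NV;i++)Z.newVar(); for(auto&c:B)Z.addClause(c); for(auto&c:S)Z.addClause(c); vector<int> selb(n); for(int i=0;i<n;i++){selb[i]=Z.newVar(); VC c=inv[i]; c.push_back(mk(selb[i],true)); Z.addClause(c);} 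
  mt19937 rng(argc>5?atoi(argv[5]):1);
  auto coreOf=[&](Solver&X,vector<int>&sl,const vector<int>&use,const VC&extra,vector<int>&out)->bool{ VC as; for(Lit l:extra)as.push_back(l); map<int,int> back; for(int i:use){as.push_back(mk(sl[i],false)); back[sl[i]]=i;} if(X.solve(as)!=0)return false; out.clear(); for(Lit l:X.conflictv){auto it=back.find(l>>1); if(it!=back.end())out.push_back(it->second);} return true; };
  auto neg1=[&](int i){VC e; for(Lit l:inv[i]){ e.push_back(mk(nx[l>>1],!(l&1))); } return e;};
  // shrink a core by deletion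
  auto shrink=[&](Solver&X,vector<int>&sl,vector<int> c,const VC&extra,const set<int>&have)->vector<int>{ // prefer removing elements not in have
     vector<int> o=c; shuffle(o.begin(),o.end(),rng); stable_sort(o.begin(),o.end(),[&](int a,int b){return have.count(a)<have.count(b);}); set<int> s(c.begin(),c.end()); for(int x:o){ if(!s.count(x)||have.count(x))continue; vector<int> u; for(int y:s)if(y!=x)u.push_back(y); vector<int> r; if(coreOf(X,sl,u,extra,r)){ s=set<int>(r.begin(),r.end()); for(int h:have)if(0)s.insert(h);} } return vector<int>(s.begin(),s.end()); };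
  vector<int> all; for(int i=0;i<n;i++)all.push_back(i); vector<int> best=all; 
  for(int r=0;r<rounds;r++){
    vector<int> pool=best; set<int> need; vector<int> c; shuffle(pool.begin(),pool.end(),rng); if(!coreOf(Z,selb,pool,{},c)){printf(@Qbad not blocked\n@Q);return 1;} c=shrink(Z,selb,c,{},need); vector<int> todo=c; for(int x:c)need.insert(x); set<int> done; bool ok=true;
    while(!todo.empty()){ int i=todo.back(); todo.pop_back(); if(done.count(i))continue; done.insert(i); VC e=neg1(i); vector<int> have(need.begin(),need.end()); vector<int> c1; if(coreOf(Q,sel,have,e,c1)) continue; shuffle(pool.begin(),pool.end(),rng); if(!coreOf(Q,sel,pool,e,c1)){printf(@Qclause %d not inductive\n@Q,i);ok=false;break;} 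
        // union with have: shrink new ones
        set<int> hv=need; vector<int> u=have; for(int x:c1)if(!hv.count(x))u.push_back(x); vector<int> c2; if(coreOf(Q,sel,u,e,c2)) c1=c2; c1=shrink(Q,sel,c1,e,hv); for(int x:c1) if(!need.count(x)){need.insert(x);todo.push_back(x);} 
        if(need.size()>=best.size()+5&&r>0)break; }
    if(!ok)return 1; if(todo.empty()&&need.size()<best.size()){best.assign(need.begin(),need.end());} fprintf(stderr,@Qround %d size %zu best %zu time %.1f\n@Q,r,need.size(),best.size(),now()-t0); if(now()-t0>(argc>6?atof(argv[6]):200))break; }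
  // literal-dropping is not done
  ofstream o(argv[3]); for(int i:best){ for(Lit l:inv[i])o<<((l&1)?-(l>>1):(l>>1))<<@Q @Q; o<<@Q0\n@Q; } printf(@Q%d -> %zu\n@Q,n,best.size()); }

## FILE hou2.cpp
// hou2 in.ts out.lem timelimit mode pools...   mode: B = all unary+binary clauses over latches, N = none
#include @Qsat2.h@Q
#include <string>
#include <fstream>
#include <sstream>
#include <set>
#include <map>
#include <chrono>
#include <algorithm>
using namespace std;
static double now(){return chrono::duration<double>(chrono::steady_clock::now().time_since_epoch()).count();}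
int NV; map<int,int> nx; vector<int> cur; vector<string> lname; typedef vector<Lit> VC; vector<VC> T,I,S,B;
Lit L2(int x){return x>0?mk(x,false):mk(-x,true);}
Lit nextL(Lit l){return mk(nx[l>>1],l&1);}
int main(int argc,char**argv){ ifstream f(argv[1]); string ln; while(getline(f,ln)){ if(ln.empty())continue; istringstream s(ln.substr(1)); char c=ln[0]; if(c=='v'){s>>NV;} else if(c=='l'){int a,b;string nm;s>>a>>b>>nm;nx[a]=b;cur.push_back(a);lname.push_back(nm);} else {int d;if(c=='d')s>>d; VC v;int y; while(s>>y){if(!y)break;v.push_back(L2(y));} if(c=='t'||c=='d')T.push_back(v); else if(c=='i')I.push_back(v); else if(c=='s')S.push_back(v); else if(c=='b')B.push_back(v);} }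
  double tl=atof(argv[3]),t0=now(); string mode=argv[4]; set<VC> pool;
  if(mode.find('B')!=string::npos){ for(size_t i=0;i<cur.size();i++)for(int a=0;a<2;a++){ Lit x=mk(cur[i],a); pool.insert({x}); for(size_t j=0;j<i;j++)for(int b=0;b<2;b++){ VC v={mk(cur[j],b),x}; sort(v.begin(),v.end()); pool.insert(v);} } }
  for(int k=5;k<argc;k++){ ifstream g(argv[k]); while(getline(g,ln)){ istringstream s(ln); int y; VC v; while(s>>y){if(!y)break;v.push_back(L2(y));} if(v.empty())continue; sort(v.begin(),v.end()); pool.insert(v);} }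
  vector<VC> act(pool.begin(),pool.end()); fprintf(stderr,@Qpool %zu\n@Q,act.size());
  // init filter
  { vector<char> dead(act.size(),0); Solver Z; for(int i=0;i<=NV;i++)Z.newVar(); for(auto&c:I)Z.addClause(c); for(auto&c:S)Z.addClause(c);
    vector<int> vv(act.size()); VC big; for(size_t j=0;j<act.size();j++){ vv[j]=Z.newVar(); for(Lit l:act[j])Z.addClause({mk(vv[j],true),neg(l)}); big.push_back(mk(vv[j],false)); } Z.addClause(big); int n=0;
    while(true){ int r=Z.solve({}); if(r!=1)break; int k=0; for(size_t j=0;j<act.size();j++){ if(dead[j])continue; bool sat=false; for(Lit l:act[j]){ bool val=Z.model[l>>1]>0; if(val!=(bool)(l&1)){sat=true;break;} } if(!sat){dead[j]=1;k++;} } for(size_t j=0;j<act.size();j++) if(dead[j]==1){ Z.addClause({mk(vv[j],true)}); dead[j]=2; } n++; if(now()-t0>tl)break; if(!k)break; }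
    vector<VC> a2; for(size_t j=0;j<act.size();j++)if(!dead[j])a2.push_back(act[j]); act.swap(a2); fprintf(stderr,@Qinit %zu models %d time %.1f\n@Q,act.size(),n,now()-t0); }
  bool to=false; int pass=0;
  while(true){ size_t n=act.size(); vector<char> dead(n,0); Solver Q; for(int i=0;i<=NV;i++)Q.newVar(); for(auto&c:T)Q.addClause(c); for(auto&c:S)Q.addClause(c); for(auto&c:act)Q.addClause(c);
    vector<int> vv(n); VC big; for(size_t j=0;j<n;j++){ vv[j]=Q.newVar(); for(Lit l:act[j])Q.addClause({mk(vv[j],true),neg(nextL(l))}); big.push_back(mk(vv[j],false)); } Q.addClause(big); int nm=0; size_t killed=0;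
    while(true){ int r=Q.solve({}); if(r!=1)break; int k=0; nm++; for(size_t j=0;j<n;j++){ if(dead[j])continue; bool sat=false; for(Lit l0:act[j]){ Lit l=nextL(l0); bool val=Q.model[l>>1]>0; if(val!=(bool)(l&1)){sat=true;break;} } if(!sat){dead[j]=1;k++; } } for(size_t j=0;j<n;j++) if(dead[j]==1){ Q.addClause({mk(vv[j],true)}); dead[j]=2; } killed+=k; if(!k){fprintf(stderr,@Qno kill?\n@Q);break;} if(now()-t0>tl){to=true;break;} if(killed>n/4+50) break; }
    vector<VC> a2; for(size_t j=0;j<n;j++)if(!dead[j])a2.push_back(act[j]); bool done=(killed==0); act.swap(a2); pass++; fprintf(stderr,@Qpass %d models %d killed %zu left %zu time %.1f\n@Q,pass,nm,killed,act.size(),now()-t0); if(done||to)break; }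
  if(to){printf(@Qtimeout left %zu\n@Q,act.size());return 2;}
  // remove clauses implied by unit/binary subsumption
  set<VC> fin; for(auto&c:act){ bool sub=false; for(Lit l:c) if(c.size()>1&&pool.count({l})&&binary_search(act.begin(),act.end(),VC{l}))sub=true; if(!sub)fin.insert(c);} 
  // bad check
  { Solver Z; for(int i=0;i<=NV;i++)Z.newVar(); for(auto&c:B)Z.addClause(c); for(auto&c:S)Z.addClause(c); for(auto&c:fin)Z.addClause(c); int r=Z.solve({}); printf(@Qbad %s @Q,r==0?@QBLOCKED@Q:@Qopen@Q); }
  ofstream o(argv[2]); for(auto&c:fin){ for(Lit l:c)o<<((l&1)?@Q-@Q:@Q@Q)<<(l>>1)<<@Q @Q; o<<@Q0\n@Q; } printf(@Qinductive %zu (after subs %zu) time %.1f\n@Q,act.size(),fin.size(),now()-t0); }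

## FILE sat2r.h
// compact CDCL solver with assumptions (MiniSat style)
#pragma once
#include <vector>
#include <cstdint>
#include <cstdio>
#include <cstdlib>
#include <algorithm>
#include <cmath>
#include <cassert>
using namespace std;
typedef int Lit; // 2v / 2v+1 (neg)
inline Lit mk(int v,bool neg){return 2*v+(neg?1:0);}
inline Lit neg(Lit l){return l^1;}
inline int var(Lit l){return l>>1;}
struct Solver{
  struct Clause{ uint32_t size; uint32_t learnt:1, lbd:31; float act; Lit lits[1]; };
  typedef uint32_t CRef; static constexpr CRef NIL=0xffffffffu;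
  vector<uint32_t> mem; // arena
  Clause& C(CRef r){return *(Clause*)&mem[r];}
  struct W{CRef c; Lit b;};
  vector<vector<W>> watches; vector<vector<W>> bw; vector<int8_t> assigns; // per var 0 undef,1 true,-1 false  => value(l)
  vector<int> level; vector<CRef> reason; vector<int8_t> phase; vector<double> activity; vector<int> heap, hpos; vector<char> seen; vector<char> dec;
  vector<Lit> trail; vector<int> lim; int qhead=0; vector<CRef> clauses, learnts; double vinc=1, cinc=1; bool ok=true; uint64_t conflicts=0,props=0,decisions=0; uint64_t wasted=0;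
  vector<Lit> assumptions, conflictv; vector<int8_t> model; vector<int> lvstamp; int stampc=0; size_t maxl=4000;
  int nVars(){return assigns.size();}
  int newVar(bool d=true){int v=nVars(); assigns.push_back(0); level.push_back(0); reason.push_back(NIL); phase.push_back(0); activity.push_back(0); hpos.push_back(-1); seen.push_back(0); dec.push_back(d); watches.emplace_back(); watches.emplace_back(); bw.emplace_back(); bw.emplace_back(); lvstamp.push_back(0); if(d) insertHeap(v); return v;}
  inline int val(Lit l){int a=assigns[l>>1]; return (l&1)?-a:a;}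
  // heap
  inline bool lt(int a,int b){return activity[a]>activity[b];}
  void up(int i){int x=heap[i];while(i>0){int p=(i-1)>>1; if(!lt(x,heap[p]))break; heap[i]=heap[p];hpos[heap[i]]=i;i=p;}heap[i]=x;hpos[x]=i;}
  void down(int i){int x=heap[i],n=heap.size();while(2*i+1<n){int c=2*i+1; if(c+1<n&&lt(heap[c+1],heap[c]))c++; if(!lt(heap[c],x))break; heap[i]=heap[c];hpos[heap[i]]=i;i=c;}heap[i]=x;hpos[x]=i;}
  void insertHeap(int v){if(hpos[v]>=0||!dec[v])return; hpos[v]=heap.size();heap.push_back(v);up(hpos[v]);}
  int removeMin(){int x=heap[0];heap[0]=heap.back();hpos[heap[0]]=0;hpos[x]=-1;heap.pop_back();if(heap.size()>1)down(0);return x;}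
  void bump(int v){if((activity[v]+=vinc)>1e100){for(auto&a:activity)a*=1e-100;vinc*=1e-100;} if(hpos[v]>=0)up(hpos[v]);}
  CRef alloc(const vector<Lit>&ls,bool learnt){uint32_t sz=ls.size(); uint32_t words=(sizeof(Clause)-sizeof(Lit))/4+sz; CRef r=mem.size(); mem.resize(r+words); Clause&c=C(r); c.size=sz;c.learnt=learnt;c.lbd=0;c.act=0; for(uint32_t i=0;i<sz;i++)c.lits[i]=ls[i]; return r;}
  void attach(CRef r){Clause&c=C(r); if(c.size==2){bw[neg(c.lits[0])].push_back({r,c.lits[1]}); bw[neg(c.lits[1])].push_back({r,c.lits[0]}); return;} watches[neg(c.lits[0])].push_back({r,c.lits[1]}); watches[neg(c.lits[1])].push_back({r,c.lits[0]});}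
  void enqueue(Lit l,CRef from){int v=l>>1; assigns[v]=(l&1)?-1:1; level[v]=lim.size(); reason[v]=from; trail.push_back(l);}
  bool addClause(vector<Lit> ls){
    if(!ok)return false; cancel(0); sort(ls.begin(),ls.end()); vector<Lit> o; Lit p=-1;
    for(Lit l:ls){ if(val(l)>0||l==(p^1))return true; if(val(l)==0&&l!=p){o.push_back(l);p=l;} }
    if(o.empty()){ok=false;return false;}
    if(o.size()==1){enqueue(o[0],NIL); ok=(propagate()==NIL); return ok;}
    CRef r=alloc(o,false); clauses.push_back(r); attach(r); return true;}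
  CRef propagate(){
    CRef confl=NIL;
    while(qhead<(int)trail.size()){
      Lit p=trail[qhead++]; props++;
      for(W&w:bw[p]){ int vv=val(w.b); if(vv>0)continue; Clause&c=C(w.c); if(c.lits[0]!=w.b){c.lits[1]=c.lits[0];c.lits[0]=w.b;} if(vv<0){confl=w.c;qhead=trail.size();return confl;} enqueue(w.b,w.c); }
      vector<W>&ws=watches[p]; size_t i=0,j=0,n=ws.size();
      for(;i<n;){
        W w=ws[i]; if(val(w.b)>0){ws[j++]=ws[i++];continue;}
        Clause&c=C(w.c); Lit fl=neg(p); if(c.lits[0]==fl){c.lits[0]=c.lits[1];c.lits[1]=fl;} i++;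
        Lit f=c.lits[0]; W nw={w.c,f}; if(f!=w.b&&val(f)>0){ws[j++]=nw;continue;}
        bool found=false; for(uint32_t k=2;k<c.size;k++) if(val(c.lits[k])>=0){c.lits[1]=c.lits[k];c.lits[k]=fl;watches[neg(c.lits[1])].push_back(nw);found=true;break;}
        if(found)continue;
        ws[j++]=nw; if(val(f)<0){confl=w.c;qhead=trail.size();while(i<n)ws[j++]=ws[i++];} else enqueue(f,w.c);
      }
      ws.resize(j);
    }
    return confl;}
  void cancel(int lv){ if((int)lim.size()>lv){ for(int c=trail.size()-1;c>=lim[lv];c@D){int v=trail[c]>>1; phase[v]=assigns[v]; assigns[v]=0; insertHeap(v);} qhead=lim[lv]; trail.resize(lim[lv]); lim.resize(lv);} }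
  vector<Lit> astack,toclear;
  bool redundant(Lit p,uint32_t ab){
    astack.clear(); astack.push_back(p); size_t top=toclear.size();
    while(!astack.empty()){ CRef r=reason[astack.back()>>1]; astack.pop_back(); Clause&c=C(r);
      for(uint32_t i=1;i<c.size;i++){Lit q=c.lits[i]; int v=q>>1; if(!seen[v]&&level[v]>0){ if(reason[v]!=NIL&&((1u<<(level[v]&31))&ab)){seen[v]=1;astack.push_back(q);toclear.push_back(q);} else {for(size_t j=top;j<toclear.size();j++)seen[toclear[j]>>1]=0; toclear.resize(top); return false;} } } }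
    return true;}
  void analyze(CRef confl,vector<Lit>&out,int&bt,int&lbd){
    int cnt=0; Lit p=-1; out.clear(); out.push_back(0); int idx=trail.size()-1;
    do{ Clause&c=C(confl); if(c.learnt) bumpC(c);
      for(uint32_t j=(p==-1?0:1);j<c.size;j++){Lit q=c.lits[j]; int v=q>>1; if(!seen[v]&&level[v]>0){bump(v);seen[v]=1; if(level[v]>=(int)lim.size())cnt++; else out.push_back(q);} }
      while(!seen[trail[idx@D]>>1]); p=trail[idx+1]; confl=reason[p>>1]; seen[p>>1]=0; cnt@D; 
      if(cnt>0){Clause&d=C(confl); if(d.lits[0]!=p){ // ensure p first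
          for(uint32_t k=1;k<d.size;k++) if(d.lits[k]==p){ swap(d.lits[0],d.lits[k]); abort(); } } }
    }while(cnt>0);
    out[0]=neg(p); toclear=out; uint32_t ab=0; for(size_t i=1;i<out.size();i++)ab|=1u<<(level[out[i]>>1]&31);
    size_t j=1; for(size_t i=1;i<out.size();i++) if(reason[out[i]>>1]==NIL||!redundant(out[i],ab)) out[j++]=out[i]; out.resize(j);
    if(out.size()==1)bt=0; else {size_t m=1; for(size_t i=2;i<out.size();i++) if(level[out[i]>>1]>level[out[m]>>1])m=i; swap(out[1],out[m]); bt=level[out[1]>>1];}
    stampc++; lbd=0; for(Lit l:out){int lv=level[l>>1]; if(lv<(int)lvstamp.size()&&lvstamp[lv]!=stampc){lvstamp[lv]=stampc;lbd++;}}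
    for(Lit l:toclear)seen[l>>1]=0; }
  void bumpC(Clause&c){ if((c.act+=cinc)>1e20){for(CRef r:learnts)C(r).act*=1e-20;cinc*=1e-20;} }
  void analyzeFinal(Lit p){ conflictv.clear(); conflictv.push_back(p); if(lim.empty())return; seen[p>>1]=1;
    for(int i=trail.size()-1;i>=lim[0];i@D){int v=trail[i]>>1; if(seen[v]){ if(reason[v]==NIL){ if(v!=(p>>1)||true) conflictv.push_back(neg(trail[i])); } else {Clause&c=C(reason[v]); for(uint32_t j=1;j<c.size;j++) if(level[c.lits[j]>>1]>0)seen[c.lits[j]>>1]=1;} seen[v]=0;} }
    seen[p>>1]=0; }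
  void detachAll(CRef r){ Clause&c=C(r); for(int k=0;k<2;k++){auto&ws=watches[neg(c.lits[k])]; size_t j=0; for(size_t i=0;i<ws.size();i++) if(ws[i].c!=r) ws[j++]=ws[i]; ws.resize(j);} }
  bool locked(CRef r){Clause&c=C(r); return val(c.lits[0])>0&&reason[c.lits[0]>>1]==r;}
  void reduceDB(){ sort(learnts.begin(),learnts.end(),[&](CRef a,CRef b){Clause&x=C(a),&y=C(b); bool xb=x.size==2||x.lbd<=2,yb=y.size==2||y.lbd<=2; if(xb!=yb)return yb; return x.act<y.act;});
    size_t n=learnts.size(),j=0; vector<char> dummy; vector<CRef> keep,del; for(size_t i=0;i<n;i++){CRef r=learnts[i];Clause&c=C(r); if(i<n/2&&c.size>2&&c.lbd>2&&!locked(r)) del.push_back(r); else keep.push_back(r);} 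
    for(CRef r:del){C(r).lbd=0x7fffffff;}
    for(auto&ws:watches){size_t j=0; for(size_t i=0;i<ws.size();i++){ Clause&c=C(ws[i].c); if(!(c.learnt&&c.lbd==0x7fffffff)) ws[j++]=ws[i];} ws.resize(j);} 
    for(CRef r:del) wasted+=C(r).size+3; learnts=keep; (void)j;
    if(wasted>mem.size()/3+100000) gc(); }
  void gc(){ vector<uint32_t> nm; nm.reserve(mem.size()-wasted/2+16); vector<pair<CRef,CRef>> mp; auto mv=[&](CRef&r){Clause&c=C(r); uint32_t words=(sizeof(Clause)-sizeof(Lit))/4+c.size; CRef nr=nm.size(); nm.insert(nm.end(),mem.begin()+r,mem.begin()+r+words); mp.push_back({r,nr}); r=nr;};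
    for(auto&r:clauses)mv(r); for(auto&r:learnts)mv(r); sort(mp.begin(),mp.end()); auto look=[&](CRef r){auto it=lower_bound(mp.begin(),mp.end(),make_pair(r,(CRef)0)); return it->second;};
    for(auto&ws:watches)for(auto&w:ws)w.c=look(w.c); for(auto&ws:bw)for(auto&w:ws)w.c=look(w.c); for(Lit l:trail){int v=l>>1; if(reason[v]!=NIL){ if(level[v]==0) reason[v]=NIL; else reason[v]=look(reason[v]);}} mem.swap(nm); wasted=0; }
  bool simplifyNeeded=false; size_t lastTrail0=0;
  void simplify(){ // remove satisfied clauses at level 0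
    cancel(0); if(!ok)return; if(propagate()!=NIL){ok=false;return;} if(trail.size()==lastTrail0)return; lastTrail0=trail.size();
    for(Lit l:trail) reason[l>>1]=NIL;
    auto sat=[&](CRef r){Clause&c=C(r); for(uint32_t i=0;i<c.size;i++) if(val(c.lits[i])>0)return true; return false;};
    vector<CRef>*vs[2]={&clauses,&learnts}; vector<char> m; 
    for(auto*v:vs){size_t j=0; for(CRef r:*v){ if(sat(r)){ C(r).act=-1; wasted+=C(r).size+3; } else (*v)[j++]=r;} v->resize(j);} 
    for(auto&ws:watches){size_t j=0; for(size_t i=0;i<ws.size();i++) if(C(ws[i].c).act!=-1.0f) ws[j++]=ws[i]; ws.resize(j);} 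
    for(auto&ws:bw){size_t j=0; for(size_t i=0;i<ws.size();i++) if(C(ws[i].c).act!=-1.0f) ws[j++]=ws[i]; ws.resize(j);} 
    if(wasted>mem.size()/3+100000) gc(); }
  static double luby(double y,int x){int size,seq; for(size=1,seq=0;size<x+1;seq++,size=2*size+1); while(size-1!=x){size=(size-1)>>1;seq@D;x=x%size;} return pow(y,seq);}
  // returns 1 sat, 0 unsat, -1 budget
  int64_t budget=-1;
  int solve(const vector<Lit>&as){
    assumptions=as; conflictv.clear(); cancel(0); if(!ok)return 0; int rest=0; int64_t start=conflicts;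
    while(true){ int lim_=luby(2,rest++)*100; int r=search(lim_); if(r>=0){ if(r==1){model=assigns;} cancel(0); return r;} if(budget>=0&&(int64_t)conflicts-start>budget){cancel(0);return -1;} } }
  vector<vector<Lit>>*rec=nullptr; int search(int nof){ int cc=0; vector<Lit> lc; 
    while(true){ CRef confl=propagate();
      if(confl!=NIL){ conflicts++;cc++; if(lim.empty()){ok=false;return 0;} int bt,lbd; analyze(confl,lc,bt,lbd); if(rec)rec->push_back(lc); cancel(bt);
        if(lc.size()==1) enqueue(lc[0],NIL); else {CRef r=alloc(lc,true); C(r).lbd=lbd; learnts.push_back(r); attach(r); bumpC(C(r)); enqueue(lc[0],r);} 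
        vinc*=1/0.95; cinc*=1/0.999;
      } else {
        if(cc>=nof){cancel(0);return -1;}
        if(learnts.size()>maxl+trail.size()/4){ reduceDB(); maxl=maxl*1.05; }
        Lit nx=-2; while(lim.size()<assumptions.size()){Lit p=assumptions[lim.size()]; int v=val(p); if(v>0)lim.push_back(trail.size()); else if(v<0){analyzeFinal(neg(p));return 0;} else {nx=p;break;}}
        if(nx==-2){ int v=-1; while(v<0||assigns[v]!=0){ if(heap.empty()){v=-1;break;} v=removeMin(); } if(v<0) return 1; decisions++; nx=mk(v,phase[v]<=0); }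
        lim.push_back(trail.size()); enqueue(nx,NIL);
      } } }
};

## FILE blkopt.cpp
// blkopt in out [seeds] [wnl] [wna] : shared derivation of all targets from the axioms, trimmed.
#include @Qsat2r.h@Q
#include <bits/stdc++.h>
using namespace std;
typedef vector<Lit> VC;
static double now(){return chrono::duration<double>(chrono::steady_clock::now().time_since_epoch()).count();}
int n; vector<VC> ax,tg;
static Lit L2(int x){return x>0?mk(x,false):mk(-x,true);}
static int I2(Lit l){return (l&1)?-(l>>1):(l>>1);}
struct Seq{ vector<VC> c; vector<int> t; }; // t: target index or -1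
// CDCL run on the axioms ids
bool run(const vector<int>&use,const vector<int>&order,int seed,Seq&out,int maxl){
  Solver S; mt19937 rng(seed); for(int i=0;i<=n;i++)S.newVar(); S.maxl=maxl;
  vector<int> u=use; if(seed)shuffle(u.begin(),u.end(),rng);
  for(int i:u){ if(!S.addClause(ax[i])) { fprintf(stderr,@Qaxioms unsat at root\n@Q); return false; } }
  if(seed){ for(int v=1;v<=n;v++){ S.activity[v]=(rng()%1000)*1e-3; S.phase[v]=(seed%3==1)?((rng()&1)?1:-1):((seed%3==2)?1:0);} for(int i=S.heap.size()/2;i>=0;i@D)S.down(i); }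
  vector<VC> rec; S.rec=&rec; out.c.clear(); out.t.clear();
  for(int j:order){ VC as; for(Lit l:tg[j])as.push_back(neg(l)); rec.clear(); int r=S.solve(as); if(r!=0){fprintf(stderr,@Qtarget %d not implied\n@Q,j);return false;}
    for(auto&c:rec){out.c.push_back(c);out.t.push_back(-1);} 
    VC f; if(!S.ok){ fprintf(stderr,@Qglobal unsat\n@Q); return false; }
    set<Lit> tl(tg[j].begin(),tg[j].end()); set<Lit> fs; for(Lit l:S.conflictv) if(tl.count(l)) fs.insert(l);
    f.assign(fs.begin(),fs.end()); if(f.empty()) f=tg[j];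
    out.c.push_back(f); out.t.push_back(j); S.addClause(f); }
  return true; }
struct Proof{ vector<int> axu; vector<VC> c; vector<int> t; vector<vector<int>> h; double cost=1e300; long hints=0; }; // hints ids: 0..|axu|-1 axioms, then learned
struct PQ{double c; Lit l; int r; bool operator<(const PQ&o)const{return c>o.c;}};
// trim: axioms given by ids use; sequence
bool trim(const vector<int>&use,const vector<VC>&lc,const vector<int>&lt,Proof&P,double wnl,double wna,bool strengthen){
  int A=use.size(),L=lc.size(),N=A+L; vector<VC> cl(N); for(int i=0;i<A;i++)cl[i]=ax[use[i]]; for(int i=0;i<L;i++)cl[A+i]=lc[i];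
  vector<vector<int>> occ(2*n+2); for(int i=0;i<N;i++)for(Lit l:cl[i])occ[l].push_back(i);
  vector<char> mark(N,0); vector<vector<int>> hint(N); for(int i=0;i<L;i++)if(lt[i]>=0)mark[A+i]=1;
  vector<int> units; for(int i=0;i<N;i++)if(cl[i].size()==1)units.push_back(i);
  vector<int> cnt(N,0); vector<double> sum(N,0); vector<int> touched; vector<char> isf(2*n+2,0); vector<double> cost(2*n+2,0); vector<int> reason(2*n+2,-1),tm(2*n+2,0); vector<Lit> fl;
  vector<int> sz(N); for(int i=0;i<N;i++)sz[i]=cl[i].size();
  for(int i=N-1;i>=A;i@D){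
    for(Lit l:cl[i]){ auto&o=occ[l]; 
      // remove i (last element, since ascending)
      if(!o.empty()&&o.back()==i)o.pop_back(); else { auto it=find(o.begin(),o.end(),i); if(it!=o.end())o.erase(it);} }
    if(cl[i].size()==1){ while(!units.empty()&&units.back()>=i)units.pop_back(); }
    if(!mark[i])continue;
    // check
    priority_queue<PQ> q; double best=1e300; int bc=-1; int T=0; for(int x:touched){cnt[x]=0;sum[x]=0;} touched.clear(); for(Lit l:fl){isf[l]=0;reason[l]=-1;} fl.clear();
    auto w=[&](int x){return mark[x]?1.0:(x<A?wna:wnl);};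
    auto setf=[&](Lit f,double c,int r){ isf[f]=1; cost[f]=c; reason[f]=r; tm[f]=T++; fl.push_back(f);
      for(int x:occ[f]){ if(cnt[x]==0&&sum[x]==0)touched.push_back(x); cnt[x]++; sum[x]+=c+1e-9; int s=sz[x]; if(cnt[x]==s){ double cc=sum[x]+w(x); if(cc<best){best=cc;bc=x;} } else if(cnt[x]==s-1){ Lit y=-1; for(Lit l:cl[x])if(!isf[l]){y=l;break;} if(y<0)continue; if(isf[neg(y)])continue; double cc=sum[x]+w(x); if(cc<best)q.push({cc,neg(y),x}); } } };
    for(Lit l:cl[i]) if(!isf[l]) setf(l,0,-1);
    for(int u:units){ Lit y=cl[u][0]; if(isf[y]){ double cc=cost[y]+w(u); if(cc<best){best=cc;bc=u;} continue;} if(!isf[neg(y)])q.push({w(u),neg(y),u}); }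
    while(!q.empty()&&q.top().c<best){ PQ p=q.top(); q.pop(); if(isf[p.l])continue; setf(p.l,p.c,p.r); }
    if(bc<0){ fprintf(stderr,@QRUP failed at %d (t %d) size %zu\n@Q,i,lt[i-A],cl[i].size()); return false; }
    // cone
    vector<pair<int,int>> cone; vector<Lit> st; set<Lit> vis; for(Lit l:cl[bc])st.push_back(l); set<Lit> usedlits; while(!st.empty()){ Lit f=st.back(); st.pop_back(); if(vis.count(f))continue; vis.insert(f); if(reason[f]<0){ usedlits.insert(f); continue;} int r=reason[f]; cone.push_back({tm[f],r}); for(Lit l:cl[r]) if(l!=neg(f))st.push_back(l); }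
    sort(cone.begin(),cone.end()); hint[i].clear(); for(auto&p:cone){hint[i].push_back(p.second);mark[p.second]=1;} hint[i].push_back(bc); mark[bc]=1;
    if(strengthen&&usedlits.size()<cl[i].size()){ VC nc; for(Lit l:cl[i])if(usedlits.count(l))nc.push_back(l); if(!nc.empty()) cl[i]=nc; }
  }
  // build: keep marked; forward simulate to trim hints
  vector<int> nid(N,-1); P=Proof(); int k=0; for(int i=0;i<A;i++)if(mark[i]){nid[i]=k++;P.axu.push_back(use[i]);}
  for(int i=A;i<N;i++)if(mark[i]){ nid[i]=k++; P.c.push_back(cl[i]); P.t.push_back(lt[i-A]);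
     set<Lit> fz(cl[i].begin(),cl[i].end()); vector<int> hh; bool ok=false; for(int h:hint[i]){ Lit rem=-1;int rc=0; for(Lit l:cl[h])if(!fz.count(l)){rem=l;rc++;if(rc>1)break;} if(rc==0){hh.push_back(nid[h]);ok=true;break;} if(rc>1){fprintf(stderr,@Qsim fail\n@Q);return false;} if(fz.count(neg(rem)))continue; hh.push_back(nid[h]); fz.insert(neg(rem)); }
     if(!ok){fprintf(stderr,@Qsim no conflict\n@Q);return false;} P.h.push_back(hh); P.hints+=hh.size()+1; }
  return true; }
double costOf(const Proof&P,double wl,double wa){ return P.hints+wl*P.c.size()+wa*P.axu.size(); }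
int main(int argc,char**argv){ ifstream f(argv[1]); string ln; while(getline(f,ln)){ if(ln.empty())continue; char c=ln[0]; istringstream s(ln.substr(1)); if(c=='p'){s>>n;continue;} VC v;int x; while(s>>x){if(!x)break;v.push_back(L2(x));} if(c=='a')ax.push_back(v); else if(c=='t')tg.push_back(v);} 
  int seeds=argc>3?atoi(argv[3]):4; double wnl=argc>4?atof(argv[4]):30,wna=argc>5?atof(argv[5]):15; double tl=argc>6?atof(argv[6]):120; double t0=now();
  vector<int> all(ax.size()); iota(all.begin(),all.end(),0); vector<int> order(tg.size()); iota(order.begin(),order.end(),0);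
  Proof best; bool have=false; vector<int> use=all; double WL=12,WA=60;
  for(int sd=0;sd<seeds;sd++){ if(sd&&now()-t0>tl)break; Seq q; mt19937 rng(sd*77+5); vector<int> o=order; if(sd)shuffle(o.begin(),o.end(),rng);
    if(!run(use,o,sd,q,sd%2?20000:4000)){ if(sd==0)return 1; continue; }
    double t1=now(); Proof P; if(!trim(use,q.c,q.t,P,wnl,wna,true)){ if(sd==0) return 1; continue;}
    // second pass on the trimmed proof
    for(int r=0;r<3;r++){ Proof Q; if(!trim(P.axu,P.c,P.t,Q,wnl,wna,true))break; if(costOf(Q,WL,WA)<costOf(P,WL,WA)*0.999)P=Q; else break; }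
    double c=costOf(P,WL,WA); fprintf(stderr,@Qseed %d: learned %zu -> %zu hints %ld axioms %zu cost %.0f (per target %.0f) cdcl %.1fs total %.1fs\n@Q,sd,q.c.size(),P.c.size(),P.hints,P.axu.size(),c,c/tg.size(),t1-t0,now()-t0);
    if(!have||c<costOf(best,WL,WA)){best=P;have=true;}
    if(sd==0)use=P.axu; else if(sd%3==2) use=best.axu; }
  FILE*o=fopen(argv[2],@Qw@Q); fprintf(o,@Qu@Q); for(int x:best.axu)fprintf(o,@Q %d@Q,x); fprintf(o,@Q\n@Q); for(size_t i=0;i<best.c.size();i++){ fprintf(o,@Ql %d@Q,best.t[i]); for(Lit l:best.c[i])fprintf(o,@Q %d@Q,I2(l)); fprintf(o,@Q 0@Q); for(int h:best.h[i])fprintf(o,@Q %d@Q,h); fprintf(o,@Q\n@Q); } fclose(o);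
  printf(@Qlearned %zu hints %ld axioms %zu per target: hints %.0f learned %.1f\n@Q,best.c.size(),best.hints,best.axu.size(),double(best.hints)/tg.size(),double(best.c.size())/tg.size()); }

-/
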