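import Mathlib.Logic.Basic

/-
# P032, toolbox 2: generator of the transition systems of the frame WT

Working notes only; this file proves nothing and nothing imports it.
In the texts below @Q stands for the double quote character, @D for two hyphens in a row, @B for slash
hyphen, @E for hyphen slash (replace them before use).
By helper137 (tp.py = all clause families with tags over primitive atoms, tri.py = systems with several
rings), helper242 (s5.py = the base S2n and the roots R2A, R2C, chk.py = independent check of an
invariant against start, step and end), helper293 (farm.py, hr.py), others.  Every family used in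
S2n was proved in Lean in the frame WT only (see `R2/H741/Tp*`, `R2/H264`, `R2/H137`); for systems with
LOCKS each family has to be justified again.  `python3 s5.py` writes the .ts file and the units.

## FILE tp.py
# primitive transition system for rings in the world WT (helper137). Every clause carries a tag = Lean family + parameters.
# colours 0..5 = a..f ; ring: sigma = (a,b,c,d,e,f) as global colours; letters 0:{e} 1:{f} 2:{a,b} 3:{c,d}
import itertools,sys
COL='abcdef'
def fs(*x): return frozenset(x)
class TS:
    def __init__(s):
        s.n=0; s.lat=[]; s.nm={}; s.cl=[]; s.ct=[]; s.st=[]; s.stt=[]; s.de=[]; s.det=[]; s.ini=[]; s.init=[]; s.bad=[]; s.badt=[]; s.latn={}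
    def new(s,nm): s.n+=1; s.nm[s.n]=nm; return s.n
    def latch(s,nm,kind='free'):
        a=s.new(('cur',)+nm); b=s.new(('nxt',)+nm); s.latn[a]=len(s.lat); s.lat.append((a,b,nm))
        if kind=='frozen': s.D(a,('frozen',),[-b,a]); s.D(a,('frozen',),[b,-a])
        return a,b
    def T(s,tag,c): s.cl.append(list(c)); s.ct.append(tag)
    def S(s,tag,c): s.st.append(list(c)); s.stt.append(tag)
    def D(s,a,tag,c): s.de.append((s.latn[a],list(c))); s.det.append(tag)
    def I(s,tag,c): s.ini.append(list(c)); s.init.append(tag)
    def B(s,tag,c): s.bad.append(list(c)); s.badt.append(tag)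
    def write(s,fn):
        with open(fn,'w') as f:
            f.write('v %d\n'%s.n)
            for a,b,nm in s.lat: f.write('l %d %d %s\n'%(a,b,'.'.join(map(str,nm))))
            for c in s.ini: f.write('i '+' '.join(map(str,c))+' 0\n')
            for c in s.st:
                t=' '.join(map(str,c))+' 0\n'; f.write('i '+t); f.write('s '+t)
            for c in s.cl: f.write('t '+' '.join(map(str,c))+' 0\n')
            for j,c in s.de: f.write('d %d '%j+' '.join(map(str,c))+' 0\n')
            for c in s.bad: f.write('b '+' '.join(map(str,c))+' 0\n')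
class Ring:
    def __init__(s,W,nm,sg,close=True,closelab=False,labels=True):
        C=s.C=W.C; s.W=W; s.nm=nm; s.sg=[COL.index(x) for x in sg]; a,b,c,d,e,f=s.sg; s.P=(a,b); s.Q=(c,d); s.ef=(e,f)
        s.let=[fs(e),fs(f),fs(a,b),fs(c,d)]; s.Tc=fs(a,b,c,d); s.part=fs(fs(a,b),fs(c,d)); s.close=close; s.closelab=closelab; s.labels=labels
        s.X=[[C.latch((nm,'X',k,l)) for l in range(4)] for k in range(6)]
        s.Cc=[[C.new((nm,'C',k,i)) for i in range(6)] for k in range(6)]
        s.Q4=[C.new((nm,'Q4',k)) for k in range(6)]; s.H=[C.new((nm,'H',k)) for k in range(6)]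
        parts=[]
        for p in (s.P,s.Q):
            parts+= [fs(fs(p[0],e),fs(p[1],f)),fs(fs(p[0],f),fs(p[1],e))]
        for i in s.P:
            for q in s.Q: parts+=[fs(fs(i,q),fs(e,f)),fs(fs(i,e),fs(q,f)),fs(fs(i,f),fs(q,e))]
        s.parts=parts; s.Dp=[{p:C.new((nm,'D',k,W.pname(p))) for p in parts} for k in range(6)]
        s.letters(); s.palettes()
        if labels: s.lab()
        if close:
            s.I=[[C.latch((nm,'I',k,l),'frozen')[0] for l in range(4)] for k in range(6)]
            for k in range(6):
                for l in range(4):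
                    C.I(('initX',),[-s.X[k][l][0],s.I[k][l]]); C.I(('initX',),[s.X[k][l][0],-s.I[k][l]])
                    C.B(('closeX',),[-s.X[k][l][0],s.I[(k+1)%6][l]]); C.B(('closeX',),[s.X[k][l][0],-s.I[(k+1)%6][l]])
    def letters(s):
        C=s.C
        for t in (0,1):
            add=(lambda tag,c: C.S(tag,c)) if t==0 else (lambda tag,c: C.T(tag,c))
            for k in range(6):
                add(('some',),[s.X[k][l][t] for l in range(4)])
                for l in range(4):
                    for m in range(l): add(('uniq',),[-s.X[k][l][t],-s.X[k][m][t]])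
                    add(('legal',),[-s.X[k][l][t],-s.X[(k+1)%6][l][t]])
        for k in range(6):
            for l in range(4):
                for i in s.let[l]:
                    for t in (0,1): C.T(('LC',t),[-s.X[k][l][t],s.Cc[k][i]])
    def palettes(s):
        C=s.C; a,b,c,d,e,f=s.sg
        for k in range(6):
            V=s.Cc[k]
            for A in itertools.combinations(range(6),5): C.T(('le4',),[-V[i] for i in A])
            # inside: T p subset T z -> ab or cd
            base=[V[e],V[f]]
            for (i,j) in ((a,b),(b,a),(c,d),(d,c)): C.T(('inside',),base+[-V[i],V[j]])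
            for i in s.P:
                for q in s.Q: C.T(('inside',),base+[-V[i],-V[q]])
            # 4 points contain e and f
            for A in itertools.combinations(range(6),4):
                C.T(('q4i',),[-V[i] for i in A]+[s.Q4[k]])
            C.T(('q4e',),[-s.Q4[k],V[e]]); C.T(('q4e',),[-s.Q4[k],V[f]])
            for A in itertools.combinations(range(6),3): C.T(('q4ge',),[-s.Q4[k]]+[V[i] for i in A])
            for p,v in s.Dp[k].items():
                K=frozenset().union(*p); C.T(('dQ',),[-v,s.Q4[k]])
                for i in range(6): C.T(('dC',),[-v,V[i] if i in K else -V[i]])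
                for p2,v2 in s.Dp[k].items():
                    if p2!=p and frozenset().union(*p2)==K and s.W.pname(p2)<s.W.pname(p): C.T(('dd',),[-v,-v2])
                C.T(('dH',),[-v,-s.H[k]])
            C.T(('hQ',),[-s.H[k],s.Q4[k]])
            C.T(('q4cases',),[-s.Q4[k],s.H[k]]+list(s.Dp[k].values()))
            C.T(('notri',),[-s.Q4[k],-s.Q4[(k+1)%6]])
            for kk in ((k+1)%6,(k+5)%6):
                C.T(('swap4',),[-s.Q4[k],-s.Cc[kk][e],-s.Cc[kk][f]]+[s.Dp[k][fs(fs(i,q),fs(e,f))] for i in s.P for q in s.Q])
                # flanks of a 4-point with a,b (both of a pair): contains c,d not a,b ; not both e,f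
                for (p,o) in ((s.P,s.Q),(s.Q,s.P)):
                    pre=[-s.Q4[k],-V[p[0]],-V[p[1]]]
                    for i in o: C.T(('flanksame',),pre+[s.Cc[kk][i]])
                    for i in p: C.T(('flanksame',),pre+[-s.Cc[kk][i]])
                    for part in (fs(fs(p[0],e),fs(p[1],f)),fs(fs(p[0],f),fs(p[1],e))):
                        C.T(('flank4',),[-s.Dp[k][part],-s.Cc[kk][e],-s.Cc[kk][f]])
                # S4r flanks: contains e,f, not i,q
                for i in s.P:
                    for q in s.Q:
                        v=s.Dp[k][fs(fs(i,q),fs(e,f))]; i2=[x for x in s.P if x!=i][0]; q2=[x for x in s.Q if x!=q][0]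
                        C.T(('flankr',),[-v,s.Cc[kk][e]]); C.T(('flankr',),[-v,s.Cc[kk][f]]); C.T(('flankr',),[-v,-s.Cc[kk][i]]); C.T(('flankr',),[-v,-s.Cc[kk][q]]); C.T(('flankr',),[-v,-s.Cc[kk][i2],-s.Cc[kk][q2]])
            # out2: S4r at k -> T at k+-2 contains ab or cd
            for i in s.P:
                for q in s.Q:
                    v=s.Dp[k][fs(fs(i,q),fs(e,f))]
                    for k2 in ((k+2)%6,(k+4)%6):
                        for x in (a,b):
                            for y in (c,d): C.T(('out2',),[-v,s.Cc[k2][x],s.Cc[k2][y]])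
            # S4 word: exactly one side is the pair
            for (n,p) in ((2,s.P),(3,s.Q)):
                for part in (fs(fs(p[0],e),fs(p[1],f)),fs(fs(p[0],f),fs(p[1],e))):
                    v=s.Dp[k][part]; C.T(('s4word',),[-v,s.X[k][n][0],s.X[k][n][1]]); C.T(('s4word',),[-v,-s.X[k][n][0],-s.X[k][n][1]])
        # FACE on own ring: neighbours of p=(r,k): centre, k+1, k-1
        for k in range(6):
            V=s.Cc[k]
            for i in (e,f):
                # single: T p={i}: i not at neighbours
                for kk in ((k+1)%6,(k+5)%6): C.T(('single',),[V[j] for j in range(6) if j!=i]+[-s.Cc[kk][i]])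
            for kk in ((k+1)%6,(k+5)%6):
                s.notsub(V,s.Cc[kk]); kk2=(k+6-(kk-k))%6
                # u=(r,kk), v=centre
                s.face(V,s.Cc[kk],None,s.Tc,[])
                s.face(V,s.Cc[kk],s.Cc[kk2],None,[])
                s.insub(V,s,kk)
            # u = centre, v=neighbours on ring
            for kk in ((k+1)%6,(k+5)%6): s.facehub(V,s.Cc[kk],[])
    # T p = V ; T u = U (|T u|<=3) ; v palette
    def notsub(s,V,U,ex=[]):
        C=s.C
        for B in itertools.combinations(range(6),3):
            for n in (1,2,3):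
                for A in itertools.combinations(B,n):
                    C.T(('notsub',),[V[i] for i in range(6) if i not in A]+[-U[i] for i in A]+[U[i] for i in range(6) if i not in B]+ex)
    def face(s,V,U,Vv,const,ex):
        C=s.C
        for B in itertools.combinations(range(6),3):
            for n in (1,2,3):
                for A in itertools.combinations(B,n):
                    for t in range(6):
                        if t in A: continue
                        if Vv is None:
                            if t not in const: continue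
                            last=[]
                        else: last=[-Vv[t]]
                        C.T(('face',),[V[i] for i in range(6) if i not in A and i!=t]+[-U[i] for i in A]+[U[i] for i in range(6) if i not in B]+last+ex)
    def facehub(s,V,Vv,ex):
        C=s.C
        for i in s.P:
            for q in s.Q:
                for t in range(6):
                    if t in (i,q): continue
                    C.T(('facehub',),[V[j] for j in range(6) if j not in (i,q,t)]+[-Vv[t]]+ex)
    def insub(s,V,r,k,ex=[]):
        # u=(r,k) two-pair 4-point with part: T p subset T u -> T p is a pair ; mixed faces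
        C=s.C
        for part,v in r.Dp[k].items():
            K=frozenset().union(*part); A,B=tuple(part)
            out=[V[j] for j in range(6) if j not in K]
            for (x,y) in ((A,B),(B,A)):
                x1,x2=sorted(x)
                C.T(('insub',),[-v]+out+[-V[x1],V[x2]]+ex); C.T(('insub',),[-v]+out+[-V[x2],V[x1]]+ex)
            for i in A:
                for q in B: C.T(('insub',),[-v]+out+[-V[i],-V[q]]+ex)
    def lab(s):
        C=s.C; a,b,c,d,e,f=s.sg; s.nn={i:[C.latch((s.nm,'n',i,k)) for k in range(6)] for i in s.Tc}; s.n0={i:[C.new((s.nm,'n0',i,k)) for k in range(6)] for i in s.Tc}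
        s.M={i:[C.latch((s.nm,'M',i,k)) for k in range(6)] for i in s.Tc}
        def v(i,x): # x = position in units: 3*k + (0,1,2) for L,0,R
            k,t=divmod(x,3); k%=6; return s.nn[i][k][0] if t==0 else s.n0[i][k] if t==1 else s.nn[i][k][1]
        for i in s.Tc:
            for k in range(6):
                C.T(('n0L',),[-s.nn[i][k][0],s.n0[i][k]]); C.T(('n0R',),[-s.nn[i][k][1],s.n0[i][k]])
                if k<3:
                    C.S(('opp',),[-s.nn[i][k][0],-s.nn[i][k+3][0]]); C.T(('opp',),[-s.nn[i][k][1],-s.nn[i][k+3][1]]); C.T(('opp',),[-s.n0[i][k],-s.n0[i][k+3]])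
                C.S(('conv',),[-s.nn[i][k][0],-s.nn[i][(k+2)%6][0],s.nn[i][(k+1)%6][0]])
                # memory: M' = M or n0 or nL or nR
                mL,mR=s.M[i][k]; C.I(('M0',),[-mL]); 
                C.D(mL,('M',),[-mR,mL,s.n0[i][k]]); C.D(mL,('M',),[-mL,mR]); C.D(mL,('M',),[-s.n0[i][k],mR])
            # convexity: extended directions x<w<y, y-x<9
            for x in range(18):
                for y in range(x+1,x+9):
                    kx,tx=divmod(x,3); ky,ty=divmod(y,3)
                    for w in range(x+1,y):
                        C.T(('conv',),[-v(i,x),-v(i,y),v(i,w)])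
            # with memory: seen at position k (d in [t0+k,u+k)), y in [ (k,0) .. (k+2,R) ]: all from (k,L) to y
            for k in range(6):
                for y in range(3*k+1,3*k+9):
                    for w in range(3*k,y):
                        if w!=y: C.T(('convM',),[-s.M[i][k][0],-v(i,y),v(i,w)])
                # y earlier: y in (k-2,L)..(k-1,R): all from y to (k-1,R)
                for y in range(3*k-6,3*k):
                    for w in range(y+1,3*k): C.T(('convM2',),[-s.M[i][k][0],-v(i,y),v(i,w)])
                # M at k and nL(k) consistency: nL -> M except at the first step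
        for k in range(6):
            k3=(k+3)%6
            for i in s.P:
                for q in s.Q:
                    C.S(('mix',),[-s.nn[i][k][0],-s.nn[q][k3][0]]); C.T(('mix',),[-s.nn[i][k][1],-s.nn[q][k3][1]])
                    for kk in range(k): C.T(('line1',),[-s.n0[i][k],-s.n0[q][k3],-s.n0[i][kk],-s.n0[q][(kk+3)%6]])
                    # s4r kind
                    v0=s.Dp[k][fs(fs(i,q),fs(e,f))]
                    C.T(('rkind',),[-v0,s.n0[i][k],s.n0[q][k]]); C.T(('rkind',),[-v0,s.n0[i][k],s.n0[i][k3]]); C.T(('rkind',),[-v0,s.n0[q][k3],s.n0[q][k]]); C.T(('rkind',),[-v0,s.n0[q][k3],s.n0[i][k3]])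
                    # other mixed 4-points: both near or both far : not (n0 i k and n0 q k3)
                    for part in s.parts:
                        K=frozenset().union(*part)
                        if i in K and q in K and fs(e,f) not in part:
                            C.T(('mkind',),[-s.Dp[k][part],-s.n0[i][k],-s.n0[q][k3]]); C.T(('mkind',),[-s.Dp[k][part],-s.n0[i][k3],-s.n0[q][k]])
                    C.T(('mkind',),[-s.H[k],-s.Cc[k][i],-s.Cc[k][q],-s.n0[i][k],-s.n0[q][k3]]); C.T(('mkind',),[-s.H[k],-s.Cc[k][i],-s.Cc[k][q],-s.n0[i][k3],-s.n0[q][k]])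
            for i in s.Tc: C.T(('lab1',),[-s.Cc[k][i],s.n0[i][k],s.n0[i][k3]])
            for n,(x,y) in ((2,s.P),(3,s.Q)):
                def four(tag,pre,A):
                    nx,nx3,ny,ny3=A
                    C.T(tag,pre+[nx,ny]); C.T(tag,pre+[nx,nx3]); C.T(tag,pre+[ny3,ny]); C.T(tag,pre+[ny3,nx3])
                four(('pairlab',),[-s.Cc[k][x],-s.Cc[k][y]],(s.n0[x][k],s.n0[x][k3],s.n0[y][k],s.n0[y][k3]))
                four(('letlab',1),[-s.X[k][n][1]],(s.nn[x][k][1],s.nn[x][k3][1],s.nn[y][k][1],s.nn[y][k3][1]))
                nx,nx3,ny,ny3=s.nn[x][k][0],s.nn[x][k3][0],s.nn[y][k][0],s.nn[y][k3][0]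
                for c_ in ([nx,ny],[nx,nx3],[ny3,ny],[ny3,nx3]): C.S(('letlab',0),[-s.X[k][n][0]]+c_)
        # line memory g(i,q)
        s.g={}
        for i in s.P:
            for q in s.Q:
                gl,gr=C.latch((s.nm,'g',i,q)); s.g[i,q]=(gl,gr); C.I(('g0',),[-gl])
                C.D(gl,('g',),[-gl,gr])
                for k in range(6):
                    C.D(gl,('g',),[-s.n0[i][k],-s.n0[q][(k+3)%6],gr]); C.T(('gline',),[-gl,-s.n0[i][k],-s.n0[q][(k+3)%6]])
                # no upper definition needed (gr may be true freely? must be sound: gr free otherwise) 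
        if s.closelab:
            s.nI={i:[C.latch((s.nm,'nI',i,k),'frozen')[0] for k in range(6)] for i in s.Tc}
            for i in s.Tc:
                for k in range(6):
                    C.I(('initn',),[-s.nn[i][k][0],s.nI[i][k]]); C.I(('initn',),[s.nn[i][k][0],-s.nI[i][k]])
                    C.B(('closen',),[-s.nn[i][k][0],s.nI[i][(k+1)%6]]); C.B(('closen',),[s.nn[i][k][0],-s.nI[i][(k+1)%6]])
    # class counts: modes per class; tau sets: (pair,single)
    def tau(s,h,l): return s.let[h]|s.let[l]
    def isT(s,k,tau): return [(-s.Cc[k][i] if i in tau else s.Cc[k][i]) for i in range(6)]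
    def absent(s,h,l):
        t=s.tau(h,l)
        for k in range(6): s.C.T(('absent',),s.isT(k,t))
    def count(s,h,l,n):
        @Q@Q@Qexactly n (1 or 2) points with palette tau; all visible (EE)@Q@Q@Q
        C=s.C; t=s.tau(h,l); lev=[]
        for j in range(n):
            a,b=C.latch((s.nm,'cnt',h,l,j+1)); C.I(('cnt0',),[-a]); lev.append((a,b)); C.B(('cntend',),[a])
        for j in range(n):
            C.D(lev[j][0],('cnt',),[-lev[j][0],lev[j][1]])
        for j in range(1,n): C.S(('cntmono',),[-lev[j][0],lev[j-1][0]])
        for k in range(6):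
            is_=s.isT(k,t)
            C.D(lev[0][0],('cnt',),is_+[lev[0][1]])
            if n==1:
                C.T(('cnt',),is_+[-lev[0][0]])
                for kk in range(k): C.T(('cnt',),is_+s.isT(kk,t))
            if n==2:
                C.D(lev[1][0],('cnt',),is_+[-lev[0][0],lev[1][1]]); C.T(('cnt',),is_+[-lev[1][0]])
                for kk in range(k):
                    C.D(lev[1][0],('cnt',),is_+s.isT(kk,t)+[lev[1][1]]); C.T(('cnt',),is_+s.isT(kk,t)+[-lev[0][0]])
                    for k2 in range(kk): C.T(('cnt',),is_+s.isT(kk,t)+s.isT(k2,t))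
            # visible: letters differ, both in tau
            C.T(('vis',),is_+[-s.X[k][h][0],-s.X[k][h][1]]); C.T(('vis',),is_+[-s.X[k][l][0],-s.X[k][l][1]])
            # letters of a point with palette tau are h or l (other letters excluded by LC)
        # upper definitions: level rises only if an event
        if n>=1:
            # lev1' -> lev1 or some isT : needs or over k ; use aux e_k <-> isT
            ek=[]
            for k in range(6):
                v=C.new((s.nm,'isT',h,l,k)); ek.append(v)
                for i in range(6): C.T(('isT',),[-v,s.Cc[k][i] if i in t else -s.Cc[k][i]])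
                C.T(('isT',),s.isT(k,t)+[v])
            C.D(lev[0][0],('cntup',),[-lev[0][1],lev[0][0]]+ek)
            if n==2:
                C.D(lev[1][0],('cntup',),[-lev[1][1],lev[1][0]]+ek)
                for k in range(6): C.D(lev[1][0],('cntup',),[-lev[1][1],lev[1][0],lev[0][0]]+[ek[x] for x in range(6) if x!=k])
    def mode(s,cls,m):
        # cls 1: A=(2,0) [abe], B=(3,1) [cdf] ; cls 2: A=(2,1) [abf], B=(3,0) [cde]
        A,B=((2,0),(3,1)) if cls==1 else ((2,1),(3,0))
        if m=='u': return
        if m=='v': s.absent(*A); return     # (0,n)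
        if m=='q': s.absent(*B); return     # (n,0)
        s.count(A[0],A[1],int(m[0])); s.count(B[0],B[1],int(m[1]))
class World:
    def __init__(s): s.C=TS(); s.rings=[]; s.first,fn=s.C.latch(('first',)); s.C.D(s.first,('first',),[-fn]); s.C.I(('first',),[s.first]); s.C.B(('first',),[-s.first])
    def pname(s,p): return '|'.join(sorted(''.join(sorted(COL[i] for i in x)) for x in p))
    def ring(s,nm,sg,**kw): r=Ring(s,nm,sg,**kw); s.rings.append(r); return r
    def couple(s,r,q,ct=None,ctb=None):
        @Q@Q@Qr, q centres at distance one; ct[k] = literal 'p(r,k) = c q' (k=0..5)@Q@Q@Q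
        C=s.C
        for k in range(6):
            for l in range(4):
                for m in range(4):
                    if r.let[l]&q.let[m]:
                        C.S(('legal2',),[-r.X[k][l][0],-q.X[k][m][0]]); C.T(('legal2',),[-r.X[k][l][1],-q.X[k][m][1]])
            for (A,B,kc) in ((r,q,k),(q,r,(k+3)%6)):
                # w_s = c_B - c_A ; positions: contact of A at direction j: ct_A[j]
                cA=(lambda j: ct[j%6]) if A is r else (lambda j: ct[(j+3)%6])
                V=A.Cc[k]; U=B.Cc[k]
                exc=[cA(k),cA(k+3)]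
                for i in A.ef: C.T(('single2',),[V[j] for j in range(6) if j!=i]+[-U[i]]+exc)
                A.notsub(V,U,exc)
                A.face(V,U,None,A.Tc,exc)            # u = partner point, v = centre of A
                A.facehub(V,U,exc)                    # u = centre of A, v = partner point
                A.insub(V,B,k,exc)
                for dk in (1,5):
                    kk=(k+dk)%6; ex2=[cA(k+2*dk),cA(k+2*dk+3)]
                    # u = partner point, v = ring neighbour ; u = ring neighbour, v = partner point
                    A.face(V,U,A.Cc[kk],None,ex2+exc)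
                    A.face(V,A.Cc[kk],U,None,ex2+exc)
            # 4-4 share at most 2
            for X3 in itertools.combinations(range(6),3):
                for u in range(6):
                    if u in X3: continue
                    for v in range(6):
                        if v in X3: continue
                        C.T(('two',),[-r.Cc[k][i] for i in X3]+[-r.Cc[k][u]]+[-q.Cc[k][i] for i in X3]+[-q.Cc[k][v]]+[ct[k],ct[(k+3)%6]])
    def contact(s,r,q,anchor=None,nm='c'):
        C=s.C; ct=[C.new(('ct',r.nm,q.nm,k)) for k in range(6)]
        if anchor is not None: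
            for k in range(6):
                if k!=anchor: C.T(('anchor',),[-ct[k]])
                else: C.T(('anchor',),[-ct[k],s.first]); C.T(('anchor',),[ct[k],-s.first])
        else:
            a,b=C.latch(('done',r.nm,q.nm)); C.I(('done0',),[-a]); C.B(('doneend',),[a])
            for k in range(6):
                C.T(('done',),[-a,-ct[k]]); C.D(a,('done',),[-ct[k],b])
                for kk in range(k): C.T(('done',),[-ct[k],-ct[kk]])
            C.D(a,('done',),[-a,b]); C.D(a,('done',),[-b,a]+ct)
        s.couple(r,q,ct)
        for k in range(6):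
            k3=(k+3)%6; c=ct[k]
            for (A,B,ka,kb) in ((r,q,k,k3),(q,r,k3,k)):
                # the point p(A,ka) is the centre of B
                for i in range(6): C.T(('ctC',),[-c,A.Cc[ka][i] if i in B.Tc else -A.Cc[ka][i]])
                assert B.part in A.Dp[ka],(A.nm,B.nm)
                C.T(('ctD',),[-c,A.Dp[ka][B.part]])
            for (ka,kb) in (((k+1)%6,(k+2)%6),((k+5)%6,(k+4)%6)):
                for i in range(6): C.T(('same',),[-c,-r.Cc[ka][i],q.Cc[kb][i]]); C.T(('same',),[-c,r.Cc[ka][i],-q.Cc[kb][i]])
                for p in r.Dp[ka]: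
                    if p in q.Dp[kb]: C.T(('sameD',),[-c,-r.Dp[ka][p],q.Dp[kb][p]]); C.T(('sameD',),[-c,r.Dp[ka][p],-q.Dp[kb][p]])
                C.T(('sameH',),[-c,-r.H[ka],q.H[kb]]); C.T(('sameH',),[-c,r.H[ka],-q.H[kb]])
                # letters at the same point for single colours on both rings? (not the same circle) none
            # near / far agreement: i common colour: n0_r i k <-> n0_q i k3
            if r.labels and q.labels:
                for i in r.Tc&q.Tc:
                    C.T(('agree',),[-c,-r.n0[i][k],q.n0[i][k3]]); C.T(('agree',),[-c,r.n0[i][k],-q.n0[i][k3]])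
                    C.T(('agree',),[-c,-r.n0[i][k3],q.n0[i][k]]); C.T(('agree',),[-c,r.n0[i][k3],-q.n0[i][k]])
                # tight orientation: A has the pair letter (x,y) before/after at ka, pair in B.Tc from different pairs of B
                for (A,B,ka,kb) in ((r,q,k,k3),(q,r,k3,k)):
                    for n,(x,y) in ((2,A.P),(3,A.Q)):
                        if x in B.Tc and y in B.Tc and fs(x,y) not in B.part:
                            for (i,j) in ((x,y),(y,x)): # i near (n0_B i kb), j far
                                kb3=(kb+3)%6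
                                pre0=[-c,-A.X[ka][n][0],-B.n0[i][kb],-B.n0[j][kb3]]
                                C.T(('tight',),pre0+[-B.nn[i][kb][0]]); C.T(('tight',),pre0+[B.nn[i][kb][1]]); C.T(('tight',),pre0+[B.nn[j][kb3][0]]); C.T(('tight',),pre0+[-B.nn[j][kb3][1]])
                                pre1=[-c,-A.X[ka][n][1],-B.n0[i][kb],-B.n0[j][kb3]]
                                C.T(('tight',),pre1+[B.nn[i][kb][0]]); C.T(('tight',),pre1+[-B.nn[i][kb][1]]); C.T(('tight',),pre1+[-B.nn[j][kb3][0]]); C.T(('tight',),pre1+[B.nn[j][kb3][1]])
        return ct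
def root2(zm=('u','u'),ym=('u','u'),norz=False,side=None,closelab=False):
    W=World(); z=W.ring('z','abcdef',closelab=closelab); y=W.ring('y','aebfcd',closelab=closelab)
    W.contact(z,y,anchor=0)
    C=W.C
    # WLOG: pair letter ab after the anchor (mirror), a near
    if side is not None:
        C.T(('wlog',),[-W.first,z.X[0][2][1]])
        C.T(('wlog',),[-W.first,z.n0[0][0]])
    for c,m in zip((1,2),zm): z.mode(c,m)
    for c,m in zip((1,2),ym): y.mode(c,m)
    if norz:
        for k in range(6):
            for i in z.P:
                for q in z.Q: C.T(('norz',),[-z.Dp[k][fs(fs(i,q),fs(z.sg[4],z.sg[5]))]])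
    return W,z,y
if __name__=='__main__':
    W,z,y=root2(); print('vars',W.C.n,'latches',len(W.C.lat),'T',len(W.C.cl))

## FILE tri.py
from tp import *
class Tri:
    def __init__(s,W,nm,cols):
        C=s.C=W.C; s.W=W; s.nm=nm; T=[COL.index(x) for x in cols]; s.Tc=frozenset(T); s.P=();s.Q=(); s.ef=(); s.out=[i for i in range(6) if i not in s.Tc]; s.let=[fs(i) for i in s.out]; s.part=None; s.labels=False; s.close=False; s.closelab=False
        s.X=[[C.latch((nm,'X',k,l)) for l in range(3)] for k in range(6)]
        s.Cc=[[C.new((nm,'C',k,i)) for i in range(6)] for k in range(6)]; s.Q4=[C.new((nm,'Q4',k)) for k in range(6)]; s.H=[C.new((nm,'H',k)) for k in range(6)]; s.Dp=[{} for k in range(6)]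
        for t in (0,1):
            add=(lambda tag,c: C.S(tag,c)) if t==0 else (lambda tag,c: C.T(tag,c))
            for k in range(6):
                add(('some3',),[s.X[k][l][t] for l in range(3)])
                for l in range(3):
                    for m in range(l): add(('uniq',),[-s.X[k][l][t],-s.X[k][m][t]])
                    add(('legal',),[-s.X[k][l][t],-s.X[(k+1)%6][l][t]])
        for k in range(6):
            V=s.Cc[k]
            for l in range(3):
                for t in (0,1): C.T(('LC',t),[-s.X[k][l][t],V[s.out[l]]])
            for A in itertools.combinations(range(6),5): C.T(('le4',),[-V[i] for i in A])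
            for A in itertools.combinations(range(6),4): C.T(('q4i',),[-V[i] for i in A]+[s.Q4[k]])
            C.T(('hQ',),[-s.H[k],s.Q4[k]])
            for A in itertools.combinations(range(6),3): C.T(('q4ge',),[-s.Q4[k]]+[V[i] for i in A])
            # 4-point contains two more outside... T v not inside T q (3 in 4) unknown kinds: only for D
            for i in s.out:
                for kk in ((k+1)%6,(k+5)%6): C.T(('single',),[V[j] for j in range(6) if j!=i]+[-s.Cc[kk][i]])
            for kk in ((k+1)%6,(k+5)%6):
                kk2=(2*k-kk)%6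
                Ring.notsub(s,V,s.Cc[kk]); Ring.face(s,V,s.Cc[kk],None,s.Tc,[]); Ring.face(s,V,s.Cc[kk],s.Cc[kk2],None,[])
                s.facehub(V,s.Cc[kk],[])
            # centre as p: u=p(k), v=p(k'), T centre inside T u + t
            for kk in range(6):
                if kk in (k,(k+3)%6): continue
                for t in s.Tc:
                    A=sorted(s.Tc-{t})
                    for B in itertools.combinations(range(6),3):
                        if set(A)<=set(B): C.T(('facec',),[-V[i] for i in A]+[V[i] for i in range(6) if i not in B]+[-s.Cc[kk][t]])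
    def facehub(s,V,Vv,ex):
        for t in s.out: s.C.T(('face3',),[V[j] for j in range(6) if j not in s.Tc and j!=t]+[-Vv[t]]+ex)
    def notsub(s,V,U,ex=[]): Ring.notsub(s,V,U,ex)
    def face(s,V,U,Vv,const,ex): Ring.face(s,V,U,Vv,const,ex)
    def insub(s,V,r,k,ex=[]): Ring.insub(s,V,r,k,ex)
    def D(s,k,part):
        if part not in s.Dp[k]:
            C=s.C; v=s.Dp[k][part]=C.new((s.nm,'D',k,s.W.pname(part))); K=frozenset().union(*part)
            C.T(('dQ',),[-v,s.Q4[k]]); C.T(('dH',),[-v,-s.H[k]])
            for i in range(6): C.T(('dC',),[-v,s.Cc[k][i] if i in K else -s.Cc[k][i]])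
            # centre inside / mixed faces
            A,B=tuple(part)
            if s.Tc<=K: C.T(('no3in',),[-v])
            for i in A:
                for q in B:
                    if i in s.Tc and q in s.Tc:
                        t=next(iter(s.Tc-{i,q}))
                        for kk in range(6):
                            if kk not in (k,(k+3)%6): C.T(('facec4',),[-v,-s.Cc[kk][t]])
        return s.Dp[k][part]
class World2(World):
    def tri(s,nm,cols): r=Tri(s,nm,cols); s.rings.append(r); return r
    def couple(s,r,q,ct,ctb=None,adj=None):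
        C=s.C
        # singles: for tri rings singles = out
        for k in range(6):
            for l in range(len(r.let)):
                for m in range(len(q.let)):
                    if r.let[l]&q.let[m]:
                        C.S(('legal2',),[-r.X[k][l][0],-q.X[k][m][0]]); C.T(('legal2',),[-r.X[k][l][1],-q.X[k][m][1]])
            for (A,B) in ((r,q),(q,r)):
                cA=(lambda j: ct[j%6]) if A is r else (lambda j: ct[(j+3)%6])
                V=A.Cc[k]; U=B.Cc[k]; exc=[cA(k),cA(k+3)]
                for i in [x for x in range(6) if fs(x) in A.let]: C.T(('single2',),[V[j] for j in range(6) if j!=i]+[-U[i]]+exc)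
                A.notsub(V,U,exc); A.face(V,U,None,A.Tc,exc); A.facehub(V,U,exc); A.insub(V,B,k,exc)
                for dk in (1,5):
                    kk=(k+dk)%6; ex2=[cA(k+2*dk),cA(k+2*dk+3)]
                    A.face(V,U,A.Cc[kk],None,ex2+exc); A.face(V,A.Cc[kk],U,None,ex2+exc)
            for X3 in itertools.combinations(range(6),3):
                for u in range(6):
                    if u in X3: continue
                    for v in range(6):
                        if v in X3: continue
                        C.T(('two',),[-r.Cc[k][i] for i in X3]+[-r.Cc[k][u]]+[-q.Cc[k][i] for i in X3]+[-q.Cc[k][v]]+[ct[k],ct[(k+3)%6]])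
    def contact(s,r,q,anchor=None,nm='c'):
        C=s.C
        if not hasattr(s,'cts'): s.cts={}
        for A,B in ((r,q),(q,r)):
            if B.part is not None:
                for k in range(6):
                    if isinstance(A,Tri): A.D(k,B.part)
        hub2=r.part is not None and q.part is not None
        if hub2:
            ct=World.contact(s,r,q,anchor,nm)
        else:
            ct=[C.new(('ct',r.nm,q.nm,k)) for k in range(6)]
            if anchor is not None:
                for k in range(6):
                    if k!=anchor: C.T(('anchor',),[-ct[k]])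
                    else: C.T(('anchor',),[-ct[k],s.first]); C.T(('anchor',),[ct[k],-s.first])
            else:
                a,b=C.latch(('done',r.nm,q.nm)); C.I(('done0',),[-a]); C.B(('doneend',),[a])
                for k in range(6):
                    C.T(('done',),[-a,-ct[k]]); C.D(a,('done',),[-ct[k],b])
                    for kk in range(k): C.T(('done',),[-ct[k],-ct[kk]])
                C.D(a,('done',),[-a,b]); C.D(a,('done',),[-b,a]+ct)
            s.couple(r,q,ct)
            for k in range(6):
                k3=(k+3)%6; c=ct[k]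
                for (A,B,ka,kb) in ((r,q,k,k3),(q,r,k3,k)):
                    for i in range(6): C.T(('ctC',),[-c,A.Cc[ka][i] if i in B.Tc else -A.Cc[ka][i]])
                    if B.part is not None: C.T(('ctD',),[-c,A.Dp[ka][B.part]])
                for (ka,kb) in (((k+1)%6,(k+2)%6),((k+5)%6,(k+4)%6)):
                    s.sameT(r,ka,q,kb,[-c])
        s.cts[r.nm,q.nm]=ct; s.cts[q.nm,r.nm]=[ct[(k+3)%6] for k in range(6)]; s.anch=getattr(s,'anch',{}); 
        if anchor is not None: s.anch[r.nm,q.nm]=anchor; s.anch[q.nm,r.nm]=(anchor+3)%6
        return ct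
    def sameT(s,r,ka,q,kb,pre):
        C=s.C
        for i in range(6): C.T(('same',),pre+[-r.Cc[ka][i],q.Cc[kb][i]]); C.T(('same',),pre+[r.Cc[ka][i],-q.Cc[kb][i]])
        C.T(('sameQ',),pre+[-r.Q4[ka],q.Q4[kb]]); C.T(('sameQ',),pre+[r.Q4[ka],-q.Q4[kb]])
        C.T(('sameH',),pre+[-r.H[ka],q.H[kb]]); C.T(('sameH',),pre+[r.H[ka],-q.H[kb]])
        for p in r.Dp[ka]:
            if p in q.Dp[kb]: C.T(('sameD',),pre+[-r.Dp[ka][p],q.Dp[kb][p]]); C.T(('sameD',),pre+[r.Dp[ka][p],-q.Dp[kb][p]])
    def ident(s,r,q1,q2):
        @Q@Q@Qq1,q2 named neighbours of r: point w = q1+q2-r ; on ring q1 when r sees q2, on ring q2 when r sees q1@Q@Q@Q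
        C=s.C; G=[C.latch(('G',r.nm,q1.nm,q2.nm,i),'frozen')[0] for i in range(6)]
        parts=set()
        for a in (q1,q2):
            for p in a.Dp[0]: parts.add(p)
        GD={p:C.latch(('GD',r.nm,q1.nm,q2.nm,s.pname(p)),'frozen')[0] for p in parts if p in q1.Dp[0] and p in q2.Dp[0]}
        for (x,y) in ((q1,q2),(q2,q1)):
            ct=s.cts[r.nm,y.nm]
            for k in range(6):
                c=ct[k]
                for i in range(6): C.T(('ident',),[-c,-x.Cc[k][i],G[i]]); C.T(('ident',),[-c,x.Cc[k][i],-G[i]])
                for p in GD: C.T(('identD',),[-c,-x.Dp[k][p],GD[p]]); C.T(('identD',),[-c,x.Dp[k][p],-GD[p]])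
def rootK1(u,labels=True,side=None):
    W=World2(); z=W.ring('z','abcdef',labels=labels); y=W.ring('y','aebfcd',labels=labels,close=False); uu=W.ring('u',u,labels=labels,close=False)
    W.contact(z,y,anchor=0); W.contact(z,uu); W.ident(z,y,uu)
    return W
def rootR22(names=('v1','q1'),cls=1,other=None,ylab=True,m2=('u',)):
    W=World2(); z=W.ring('z','abcdef'); y=W.ring('y','aebfcd',close=False); W.contact(z,y,anchor=0)
    A,B=((2,0),(3,1)) if cls==1 else ((2,1),(3,0)); 
    col={(2,0):'abe',(3,1):'cdf',(2,1):'abf',(3,0):'cde'}
    z.count(A[0],A[1],2); z.count(B[0],B[1],2)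
    if other: z.mode(3-cls,other)
    rs=[y]
    for n in names:
        v=W.tri(n,col[A] if n[0]=='v' else col[B]); W.contact(z,v)
        for x in rs: W.ident(z,x,v)
        rs.append(v)
    return W
def rule2(s,cls):
    @Q@Q@Qclass cls of hub ring s: if both palettes occur, each occurs at most twice and all are visible (isT is guarded by both present)@Q@Q@Q
    C=s.C; A,B=((2,0),(3,1)) if cls==1 else ((2,1),(3,0)); pr={}
    for (h,l) in (A,B): pr[h,l]=C.latch((s.nm,'pres',h,l),'frozen')[0]
    G=[-pr[A],-pr[B]]
    for (h,l) in (A,B):
        t=s.tau(h,l); lev=[]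
        for j in range(2):
            a,b=C.latch((s.nm,'cnt',h,l,j+1)); C.I(('cnt0',),[-a]); lev.append((a,b))
        C.B(('cntend',),G+[lev[0][0]])
        for j in range(2): C.D(lev[j][0],('cnt',),[-lev[j][0],lev[j][1]])
        C.S(('cntmono',),[-lev[1][0],lev[0][0]])
        ek=[]
        for k in range(6):
            v=C.new((s.nm,'isT',h,l,k)); ek.append(v)
            for i in range(6): C.T(('isT',),[-v,s.Cc[k][i] if i in t else -s.Cc[k][i]])
            C.T(('isT',),[-v,pr[A]]); C.T(('isT',),[-v,pr[B]])
            C.T(('isT',),s.isT(k,t)+[v]+G); C.T(('pres',),s.isT(k,t)+[pr[h,l]])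
        for k in range(6):
            v=ek[k]
            C.D(lev[0][0],('cnt',),[-v,lev[0][1]])
            C.D(lev[1][0],('cnt',),[-v,-lev[0][0],lev[1][1]]); C.T(('cnt',),[-v,-lev[1][0]])
            for kk in range(k):
                C.D(lev[1][0],('cnt',),[-v,-ek[kk],lev[1][1]]); C.T(('cnt',),[-v,-ek[kk],-lev[0][0]])
                for k2 in range(kk): C.T(('cnt',),[-v,-ek[kk],-ek[k2]])
            C.T(('vis',),[-v,-s.X[k][h][0],-s.X[k][h][1]]); C.T(('vis',),[-v,-s.X[k][l][0],-s.X[k][l][1]])
        C.D(lev[0][0],('cntup',),[-lev[0][1],lev[0][0]]+ek)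
        C.D(lev[1][0],('cntup',),[-lev[1][1],lev[1][0]]+ek)
        for k in range(6): C.D(lev[1][0],('cntup',),[-lev[1][1],lev[1][0],lev[0][0]]+[ek[x] for x in range(6) if x!=k])
    return pr
def endrule(W,z,y):
    @Q@Q@Qz={ab|cd}, y={ae|bf} S4 contact of z (common colours a,b a pair of z, split in y): END RULE end_same@Q@Q@Q
    C=W.C
    P=None
    for n,(pr,ot) in ((2,(z.P,z.Q)),(3,(z.Q,z.P))):
        if set(pr)<=y.Tc and not set(ot)&y.Tc: P,O,no=pr,ot,(3 if n==2 else 2)
    for (a,b) in (P,P[::-1]):
        pa=[x for x in y.part if a in x][0]; e=next(iter(pa-{a})); pb=[x for x in y.part if b in x][0]; f=next(iter(pb-{b})); c,d=O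
        for k in range(6):
            V=z.Cc[k]; U=y.Cc[k]
            for t in (0,1):
                pre=[-z.X[k][no][t],-U[a],-U[e]]
                C.T(('end',),pre+[-V[a]]); C.T(('end',),pre+[-V[b]]); C.T(('end',),pre+[-V[e],V[f]])
                C.T(('end',),pre+[-V[e],-U[b]]); C.T(('end',),pre+[-V[e],-U[f]]); C.T(('end',),pre+[-V[e],U[c],U[d]]); C.T(('end',),pre+[-V[e],-U[c],-U[d]])

## FILE s5.py
import sys
from ty import *
from bm import *
AE=fs(fs(0,4),fs(1,5)); ACEF=fs(fs(0,2),fs(4,5))
DN=False
def met(z,part):
    C=z.C
    if not DN: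
        a,b=C.latch(('met',z.nm)); C.I(('met0',),[-a]); C.B(('metend',),[a]); C.D(a,('met',),[-b,a]+[z.Dp[k][part] for k in range(6)])
    else:
        a,b=C.latch(('done','z','y')); C.I(('done0',),[-a]); C.B(('doneend',),[a]); z.W.pend=(z,part,a,b)
def finish(W):
    @Q@Q@Qdone latch of the contact z - y (137's encoding), variables ct at the end of the numbering@Q@Q@Q
    if not hasattr(W,'pend'): return
    z,part,a,b=W.pend; C=W.C; ct=[C.new(('ct','z','y',k)) for k in range(6)]
    for k in range(6):
        C.T(('done',),[-a,-ct[k]]); C.D(a,('done',),[-ct[k],b])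
        for kk in range(k): C.T(('done',),[-ct[k],-ct[kk]])
        C.T(('ctD',),[-ct[k],z.Dp[k][part]])
    C.D(a,('done',),[-a,b]); C.D(a,('done',),[-b,a]+ct)
def met2(z,n=2):
    C=z.C; a,b=C.latch(('sn',z.nm)); C.I(('sn0',),[-a]); C.B(('snend',),[a]); ev=[]
    for k in range(6):
        v=C.new(('ue',k)); ev.append(v); C.T(('ue',),[-v,z.Q4[k]]); C.T(('ue',),[-v,z.X[k][n][0],z.X[k][n][1]]); C.T(('ue',),[-v,-z.X[k][n][0],-z.X[k][n][1]])
    C.D(a,('sn',),[-b,a]+ev)
M2=False
def domet(z,part):
    if M2: met2(z)
    else: met(z,part)
def R2(mode):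
    W=World3(); z=hub(W,'z','abcdef'); C=W.C
    C.T(('anchD',),[-W.first,z.Dp[0][ACEF]])
    if mode:
        for k in (2,4):
            for i in ((0,1) if mode=='A' else (2,3)): C.T(('hyp',),[-W.first,z.Cc[k][i]])
    types(z,3); domet(z,AE); rule2(z,1); rule2(z,2)
    return W
def S2n(w='acef',rz=False,AC=True,hr=None):
    W=World3(); z=hub(W,'z','abcdef'); C=W.C
    rest=''.join(c for c in 'abcdef' if c not in w); ww=hub(W,'w',w+rest); W.contact(z,ww,anchor=0)
    types(z,3); domet(z,AE)
    if AC:
        for P in (z.P,z.Q):
            for i in P: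
                for j in P: C.T(('hypAC',),[-W.first,-z.Cc[2][i],-z.Cc[4][j]])
    rule2(ww,1); rule2(ww,2)
    if rz: rule2(z,1); rule2(z,2)
    return W
def get(nm):
    global DN,M2
    if nm.endswith('d'):
        DN=True; W=get(nm[:-1]); finish(W); return W
    if nm=='R2A': return R2('A')
    if nm=='R2C': return R2('C')
    if nm=='R2': return R2(None)
    if nm=='S2n': return S2n()
    if nm=='S2nz': return S2n(rz=True)
    if nm=='S2n0': return S2n(AC=False)
    if nm.endswith('m2'):
        M2=True; return get(nm[:-2])
if __name__=='__main__':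
    nm=sys.argv[1]; W=get(nm); C=W.C; print(nm,'vars',C.n,'lat',len(C.lat),'T',len(C.cl),flush=True)
    if len(sys.argv)>3:
        C.write(sys.argv[3])
        with open(sys.argv[3].replace('.ts','.extra'),'w') as o:
            for c,t in zip(C.cl,C.ct):
                if t[0] in ('hyp','hypAC'): o.write(' '.join(map(str,c))+' 0\n')
    for T in [int(x) for x in sys.argv[2].split(',')]:
        r=bmc(W,T,900,tag='s5'+nm)
        if r==10: break

## FILE ty.py
# one ring + type memory (A1, A2), two rings + types (S2). helper137, after 833 / 242 / 709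
from hr import *
def types(z,n):
    @Q@Q@Qarcs of pair n (2: ab, 3: cd) of z carry a type: F = letter of the end contact's ring above is the one with e (real ends only f); else only e@Q@Q@Q
    C=z.C; p=z.P if n==2 else z.Q; e,f=z.ef
    F=[C.latch((z.nm,'F',n,k)) for k in range(6)]; I=[C.latch((z.nm,'IF',n,k),'frozen')[0] for k in range(6)]
    for k in range(6):
        a,b=F[k]; x0,x1=z.X[k][n]
        C.T(('tpkeep',),[-x0,-x1,-a,b]); C.T(('tpkeep',),[-x0,-x1,a,-b])
        for x,t in ((x0,a),(x1,b)):
            # V = {p,e} only over not F ; V = {p,f} only over F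
            V=z.Cc[k]
            C.T(('tpend',),[-x,-V[e],V[f],-t]); C.T(('tpend',),[-x,-V[f],V[e],t])
        C.I(('initF',),[-a,I[k]]); C.I(('initF',),[a,-I[k]])
    for k in range(6):
        a,b=F[k]; C.B(('closeF',),[-a,-z.X[k][n][0],I[(k+1)%6]]); C.B(('closeF',),[a,-z.X[k][n][0],-I[(k+1)%6]])
def anchor(z,first,n=2,part=None):
    @Q@Q@Qat the first step the point p(z,0) is an S4 or crossed harmless end {a,b,e,f}: exactly one side ab@Q@Q@Q
    C=z.C; p=z.P if n==2 else z.Q; e,f=z.ef; K=set(p)|{e,f}
    for i in range(6): C.T(('anch',),[-first,z.Cc[0][i] if i in K else -z.Cc[0][i]])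
    C.T(('anch',),[-first,z.X[0][n][0],z.X[0][n][1]]); C.T(('anch',),[-first,-z.X[0][n][0],-z.X[0][n][1]])
def A1():
    W=World3(); z=hub(W,'z','abcdef'); anchor(z,W.first); types(z,3); norz(z); nocross(z,3)
    for k in range(6): 
        for part in (fs(fs(z.Q[0],z.ef[0]),fs(z.Q[1],z.ef[1])),fs(fs(z.Q[0],z.ef[1]),fs(z.Q[1],z.ef[0]))): z.C.T(('nocross',),[-z.Dp[k][part]])
    rule2(z,1); rule2(z,2); return W
def A0(r2=True,anc=True):
    W=World3(); z=hub(W,'z','abcdef')
    if anc: anchor(z,W.first)
    types(z,3); norz(z)
    if r2: rule2(z,1); rule2(z,2)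
    return W
def A2():
    W=World3(); z=hub(W,'z','abcdef'); anchor(z,W.first); types(z,3); types(z,2); norz(z); rule2(z,1); rule2(z,2); return W
def S2(w='acef',rz=False):
    W=World3(); z=hub(W,'z','abcdef'); anchor(z,W.first); types(z,3)
    rest=''.join(c for c in 'abcdef' if c not in w); ww=hub(W,'w',w+rest); W.contact(z,ww)
    rule2(ww,1); rule2(ww,2)
    if rz: rule2(z,1); rule2(z,2)
    return W
def mkt(nm):
    t=nm.split('_')
    if t[0]=='A0': return A0(r2='n2' not in t,anc='na' not in t)
    if t[0]=='A1': return A1()
    if t[0]=='A2': return A2()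
    if t[0]=='S2': return S2(t[1] if len(t)>1 else 'acef',rz=len(t)>2)
    return mk(nm)
if __name__=='__main__':
    import sys
    from bm import *
    nm=sys.argv[1]
    for T in [int(x) for x in sys.argv[2].split(',')]:
        W=mkt(nm); print(nm,'vars',W.C.n,'latches',len(W.C.lat),'T',len(W.C.cl),flush=True); r=bmc(W,T,900,tag=nm)
        if r==10:
            if len(sys.argv)>3: model(W,T,tag=nm)
            break

## FILE hr.py
from tri import *
class HRing:
    @Q@Q@Qharmless centre y: T y = {a,b,e,f}, arc pair A = {a,e}; sg = 'aebfcd' (pair a e first, then b f, then c d). letters 0:{c} 1:{d} 2:{a,e} (3 never)@Q@Q@Q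
    def __init__(s,W,nm,sg,close=True):
        C=s.C=W.C; s.W=W; s.nm=nm; s.sg=[COL.index(x) for x in sg]; a,b,c,d,e,f=s.sg; s.P=(a,b); s.Q=(c,d); s.ef=(e,f)
        s.let=[fs(e),fs(f),fs(a,b),fs(c,d)]; s.Tc=fs(a,b,c,d); s.part=None; s.harm=True; s.close=close; s.closelab=False; s.labels=False
        s.X=[[C.latch((nm,'X',k,l)) for l in range(4)] for k in range(6)]
        s.Cc=[[C.new((nm,'C',k,i)) for i in range(6)] for k in range(6)]
        s.Q4=[C.new((nm,'Q4',k)) for k in range(6)]; s.H=[C.new((nm,'H',k)) for k in range(6)]
        parts=[]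
        for p in (s.P,s.Q): parts+= [fs(fs(p[0],e),fs(p[1],f)),fs(fs(p[0],f),fs(p[1],e)),fs(fs(*p),fs(e,f))]
        for i in s.P:
            for q in s.Q: parts+=[fs(fs(i,q),fs(e,f)),fs(fs(i,e),fs(q,f)),fs(fs(i,f),fs(q,e))]
        s.parts=parts; s.Dp=[{p:C.new((nm,'D',k,W.pname(p))) for p in parts} for k in range(6)]
        Ring.letters(s)
        for k in range(6):
            V=s.Cc[k]
            C.S(('noBF',),[-s.X[k][3][0]]); C.T(('noBF',),[-s.X[k][3][1]])
            for A in itertools.combinations(range(6),5): C.T(('le4',),[-V[i] for i in A])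
            C.T(('insideH',),[V[e],V[f],V[a]]); C.T(('insideH',),[V[e],V[f],V[b]])
            for A in itertools.combinations(range(6),4): C.T(('q4i',),[-V[i] for i in A]+[s.Q4[k]])
            C.T(('q4eH',),[-s.Q4[k],V[e]]); C.T(('q4eH',),[-s.Q4[k],V[f]])
            for A in itertools.combinations(range(6),3): C.T(('q4ge',),[-s.Q4[k]]+[V[i] for i in A])
            for p,v in s.Dp[k].items():
                K=frozenset().union(*p); C.T(('dQ',),[-v,s.Q4[k]])
                for i in range(6): C.T(('dC',),[-v,V[i] if i in K else -V[i]])
                for p2,v2 in s.Dp[k].items():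
                    if p2!=p and frozenset().union(*p2)==K and s.W.pname(p2)<s.W.pname(p): C.T(('dd',),[-v,-v2])
                C.T(('dH',),[-v,-s.H[k]])
            C.T(('hQ',),[-s.H[k],s.Q4[k]])
            C.T(('q4cases',),[-s.Q4[k],s.H[k]]+list(s.Dp[k].values()))
            for i in (e,f):
                for kk in ((k+1)%6,(k+5)%6): C.T(('single',),[V[j] for j in range(6) if j!=i]+[-s.Cc[kk][i]])
            for kk in ((k+1)%6,(k+5)%6):
                kk2=(2*k-kk)%6
                Ring.notsub(s,V,s.Cc[kk]); Ring.face(s,V,s.Cc[kk],None,s.Tc,[]); Ring.face(s,V,s.Cc[kk],s.Cc[kk2],None,[])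
                Ring.insub(s,V,s,kk); s.facehub(V,s.Cc[kk],[])
            # 4-4 at distance one on the ring share at most 2
            kk=(k+1)%6
            for X3 in itertools.combinations(range(6),3):
                for u in range(6):
                    for v in range(6):
                        if u in X3 or v in X3: continue
                        C.T(('two',),[-V[i] for i in X3]+[-V[u]]+[-s.Cc[kk][i] for i in X3]+[-s.Cc[kk][v]])
        s.I=[[C.latch((nm,'I',k,l),'frozen')[0] for l in range(4)] for k in range(6)]
        for k in range(6):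
            for l in range(4):
                C.I(('initX',),[-s.X[k][l][0],s.I[k][l]]); C.I(('initX',),[s.X[k][l][0],-s.I[k][l]])
                C.B(('closeX',),[-s.X[k][l][0],s.I[(k+1)%6][l]]); C.B(('closeX',),[s.X[k][l][0],-s.I[(k+1)%6][l]])
    def facehub(s,V,Vv,ex):
        a,b,c,d,e,f=s.sg
        for S3 in ((a,c,d),(b,c,d)):
            for t in range(6):
                if t in S3: continue
                s.C.T(('faceH',),[V[j] for j in range(6) if j not in S3 and j!=t]+[-Vv[t]]+ex)
    def notsub(s,V,U,ex=[]): Ring.notsub(s,V,U,ex)
    def face(s,V,U,Vv,const,ex): Ring.face(s,V,U,Vv,const,ex)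
    def insub(s,V,r,k,ex=[]): Ring.insub(s,V,r,k,ex)
    absent=Ring.absent; isT=Ring.isT; tau=Ring.tau
class World3(World2):
    def hring(s,nm,sg): r=HRing(s,nm,sg); s.rings.append(r); return r
    def contact(s,r,q,anchor=None,nm='c'):
        C=s.C; hh=[getattr(x,'harm',False) for x in (r,q)]
        if not any(hh): return World2.contact(s,r,q,anchor,nm)
        assert r.part is not None and hh[1]
        ct=[C.new(('ct',r.nm,q.nm,k)) for k in range(6)]
        if not hasattr(s,'cts'): s.cts={}
        if anchor is not None:
            for k in range(6):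
                if k!=anchor: C.T(('anchor',),[-ct[k]])
                else: C.T(('anchor',),[-ct[k],s.first]); C.T(('anchor',),[ct[k],-s.first])
        else:
            a,b=C.latch(('done',r.nm,q.nm)); C.I(('done0',),[-a]); C.B(('doneend',),[a])
            for k in range(6):
                C.T(('done',),[-a,-ct[k]]); C.D(a,('done',),[-ct[k],b])
                for kk in range(k): C.T(('done',),[-ct[k],-ct[kk]])
            C.D(a,('done',),[-a,b]); C.D(a,('done',),[-b,a]+ct)
        World2.couple(s,r,q,ct)
        for k in range(6):
            k3=(k+3)%6; c=ct[k]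
            for i in range(6):
                C.T(('ctC',),[-c,r.Cc[k][i] if i in q.Tc else -r.Cc[k][i]]); C.T(('ctC',),[-c,q.Cc[k3][i] if i in r.Tc else -q.Cc[k3][i]])
            C.T(('ctH',),[-c,r.H[k]])
            if r.part in q.Dp[k3]: C.T(('ctD',),[-c,q.Dp[k3][r.part]])
            for (ka,kb) in (((k+1)%6,(k+2)%6),((k+5)%6,(k+4)%6)): s.sameT(r,ka,q,kb,[-c])
            # crossed end: exactly one side is the pair letter of z inside T y
            for n,p in ((2,r.P),(3,r.Q)):
                if set(p)<=q.Tc:
                    C.T(('crossend',),[-c,r.X[k][n][0],r.X[k][n][1]]); C.T(('crossend',),[-c,-r.X[k][n][0],-r.X[k][n][1]])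
        s.cts[r.nm,q.nm]=ct; s.cts[q.nm,r.nm]=[ct[(k+3)%6] for k in range(6)]
        return ct
    def identH(s,r,q1,q2):
        C=s.C; G=[C.latch(('G',r.nm,q1.nm,q2.nm,i),'frozen')[0] for i in range(6)]
        ps=[p for p in q1.Dp[0] if p in q2.Dp[0]]; GD={p:C.latch(('GD',r.nm,q1.nm,q2.nm,s.pname(p)),'frozen')[0] for p in ps}
        for (x,y) in ((q1,q2),(q2,q1)):
            ct=s.cts[r.nm,y.nm]
            for k in range(6):
                c=ct[k]
                for i in range(6): C.T(('ident',),[-c,-x.Cc[k][i],G[i]]); C.T(('ident',),[-c,x.Cc[k][i],-G[i]])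
                for p in GD: C.T(('identD',),[-c,-x.Dp[k][p],GD[p]]); C.T(('identD',),[-c,x.Dp[k][p],-GD[p]])
def hub(W,nm,sg): return W.ring(nm,sg,close=True,closelab=True)
def norz(z):
    for k in range(6):
        for i in z.P:
            for q in z.Q: z.C.T(('norz',),[-z.Dp[k][fs(fs(i,q),fs(z.sg[4],z.sg[5]))]])
def nocross(z,n=3):
    p=z.Q if n==3 else z.P
    for k in range(6):
        for t in (0,1): z.C.T(('nocross',),[-z.Q4[k],-z.Cc[k][p[0]],-z.Cc[k][p[1]],-z.X[k][n][t]])
def mkK1(yt,ut,r0=True):
    @Q@Q@Qyt: 'S' two-pair ae|bf or 'H' harmless A=ae ; ut: e.g. 'Scedfab','Scfdeab','Hcedfab','Hcfdeab' (H: arc pair = first two)@Q@Q@Q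
    W=World3(); z=hub(W,'z','abcdef'); y=hub(W,'y','aebfcd') if yt=='S' else W.hring('y','aebfcd')
    u=hub(W,'u',ut[1:]) if ut[0]=='S' else W.hring('u',ut[1:])
    W.contact(z,y,anchor=0); W.contact(z,u); W.identH(z,y,u)
    # both are ends
    if yt=='S': pass
    if r0: norz(z)
    return W
def mkK3(yt,w):
    W=World3(); z=hub(W,'z','abcdef'); y=hub(W,'y','aebfcd') if yt=='S' else W.hring('y','aebfcd')
    rest=''.join(c for c in 'abcdef' if c not in w); ww=hub(W,'w',w+rest)
    W.contact(z,y,anchor=0); W.contact(z,ww); W.identH(z,y,ww)
    for r in (z,ww)+((y,) if yt=='S' else ()): rule2(r,1); rule2(r,2)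
    return W
def mkK2(yt,m=None):
    W=World3(); z=hub(W,'z','abcdef'); y=hub(W,'y','aebfcd') if yt=='S' else W.hring('y','aebfcd')
    W.contact(z,y,anchor=0); norz(z); nocross(z,3)
    if m is None: rule2(z,1); rule2(z,2)
    else: z.mode(1,m[0]); z.mode(2,m[1])
    return W
def mk(nm):
    t=nm.split('_')
    if t[0]=='K1': return mkK1(t[1],t[2],r0=(len(t)<4))
    if t[0]=='K2': return mkK2(t[1],(t[2],t[3]) if len(t)>2 else None)
    if t[0]=='K3': return mkK3(t[1],t[2])

## FILE bm.py
import sys,time,collections
import core
def unroll(W,steps):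
    C=W.C; n=C.n; lat=C.lat; L=len(lat); idx={a:i for i,(a,b,_) in enumerate(lat)}; nx={b:i for i,(a,b,_) in enumerate(lat)}
    tot=(steps+1)*L; cls=[]; tg=[]
    def put(c,t,off,g):
        r=[]
        for l in c:
            v=abs(l)
            if v in idx: w=t*L+idx[v]+1
            elif v in nx: w=(t+1)*L+nx[v]+1
            else: w=off+v
            r.append(w if l>0 else -w)
        cls.append(r); tg.append(g)
    nv=tot; off=nv; nv+=n
    for c,g in zip(C.ini,C.init): put(c,0,off,('I',)+g)
    for t in range(steps):
        off=nv; nv+=n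
        for c,g in zip(C.st,C.stt): put(c,t,off,('S',)+g)
        for c,g in zip(C.cl,C.ct): put(c,t,off,('T',)+g)
        for (j,c),g in zip(C.de,C.det): put(c,t,off,('D',)+g)
    off=nv; nv+=n
    for c,g in zip(C.st,C.stt): put(c,steps,off,('S',)+g)
    for c,g in zip(C.bad,C.badt): put(c,steps,off,('B',)+g)
    return nv,cls,tg,idx,L
def bmc(W,steps,tl=300,show=False,tag='x'):
    nv,cls,tg,idx,L=unroll(W,steps); t0=time.time(); r,used,h=core.core(nv,cls,tag,tl)
    print('  steps',steps,'cls',len(cls),{10:'SAT',20:'UNSAT'}.get(r,r),'core',None if used is None else len(used),'hints',h,'%.1fs'%(time.time()-t0),flush=True)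
    if show and used is not None:
        cnt=collections.Counter((tg[i][0],tg[i][1]) for i in used)
        print('   ',dict(sorted(((a+' '+b),v) for (a,b),v in cnt.items())))
    return r
def model(W,steps,tl=300,tag='m'):
    import subprocess
    nv,cls,tg,idx,L=unroll(W,steps); f='/tmp/tp/m_%s.cnf'%tag
    with open(f,'w') as o:
        o.write('p cnf %d %d\n'%(nv,len(cls))); o.write(''.join(' '.join(map(str,c))+' 0\n' for c in cls))
    r=subprocess.run(['/opt/elan/bin/cadical','-q','-t',str(tl),f],capture_output=True,text=True)
    if r.returncode!=10: print('not sat',r.returncode); return None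
    val=set()
    for l in r.stdout.splitlines():
        if l.startswith('v'): val|={int(x) for x in l[2:].split() if int(x)>0}
    C=W.C; n=C.n; tot=(steps+1)*L
    nx={b:i for i,(a,b,_) in enumerate(C.lat)}
    def get(v,t):
        if v in idx: return (t*L+idx[v]+1) in val
        if v in nx: return ((t+1)*L+nx[v]+1) in val
        return (tot+n+t*n+v) in val
    from tp import COL
    for t in range(steps):
        for r in W.rings:
            s=''
            for k in range(6):
                x=[l for l in range(4) if get(r.X[k][l][0],t)][0]; y=[l for l in range(4) if get(r.X[k][l][1],t)][0]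
                T=''.join(COL[i] for i in range(6) if get(r.Cc[k][i],t))
                nm=lambda l:''.join(sorted(COL[i] for i in r.let[l]))
                D=[W.pname(p) for p,v in r.Dp[k].items() if get(v,t)]
                s+='%s>%s[%s%s] '%(nm(x),nm(y),T,' '+D[0] if D else (' H' if get(r.H[k],t) else ''))
            print('   t%d %s: %s'%(t,r.nm,s))
            if r.labels:
                print('        nL',' '.join(COL[i]+''.join(str(k) for k in range(6) if get(r.nn[i][k][0],t)) for i in sorted(r.Tc)),' n0',' '.join(COL[i]+''.join(str(k) for k in range(6) if get(r.n0[i][k],t)) for i in sorted(r.Tc)))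
    return True

## FILE k3.py
import sys
from tri import *
from bm import *
def norz(z):
    for k in range(6):
        for i in z.P:
            for q in z.Q: z.C.T(('norz',),[-z.Dp[k][fs(fs(i,q),fs(z.sg[4],z.sg[5]))]])
def nos4(z,pair):
    # no S4 contacts on arcs of the pair
    e,f=z.sg[4],z.sg[5]
    p=z.P if pair==0 else z.Q
    for k in range(6):
        for part in (fs(fs(p[0],e),fs(p[1],f)),fs(fs(p[0],f),fs(p[1],e))): z.C.T(('nos4',),[-z.Dp[k][part]])
def rootK3(w,r2='zyw',names=()):
    @Q@Q@Qz=ab|cd, y=ae|bf (anchor), w = S4r contact of z: w = 'adef' means ad|ef@Q@Q@Q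
    W=World2(); z=W.ring('z','abcdef'); y=W.ring('y','aebfcd',close=False)
    rest=''.join(c for c in 'abcdef' if c not in w)
    ww=W.ring('w',w+rest,close=False)
    W.contact(z,y,anchor=0); W.contact(z,ww); W.ident(z,y,ww)
    for r,n in ((z,'z'),(y,'y'),(ww,'w')):
        if n in r2: rule2(r,1); rule2(r,2)
    return W
def rootK1r(u):
    W=rootK1(u); z=W.rings[0]; norz(z); return W
def rootK2(kind=True):
    W=World2(); z=W.ring('z','abcdef'); y=W.ring('y','aebfcd',close=False); W.contact(z,y,anchor=0); norz(z); nos4(z,1); rule2(z,1); rule2(z,2); return W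
if __name__=='__main__':
    which=sys.argv[1]
    for T in [int(x) for x in sys.argv[2].split(',')]:
        if which=='K2': W=rootK2()
        elif which=='K1': W=rootK1r('cedfab')
        elif which=='K1b': W=rootK1r('cfdeab')
        elif which=='K1r2':
            W=rootK1r('cedfab'); rule2(W.rings[0],1); rule2(W.rings[0],2)
        else: W=rootK3(which)
        print(which,'vars',W.C.n,'T',len(W.C.cl)); r=bmc(W,T,900,tag=which)
        if r==10: break

## FILE mkun.py
# units of start word pairs: literals on frozen I latches of the listed rings ; alive in one step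
import sys,subprocess,pickle
from s5 import *
LET='efPQ'
def starts(W,T=2,tag='pp',maxn=5000):
    C=W.C; sb,sbt=C.bad,C.badt; C.bad,C.badt=[],[]; nv,cls,tg,idx,L=unroll(W,T); C.bad,C.badt=sb,sbt; rs=[r for r in W.rings if r.close]; found={}
    def lit(r,k,l,t=0): return t*L+idx[r.X[k][l][0]]+1
    blocks=[]
    while True:
        f='/tmp/ts/en_%s.cnf'%tag
        with open(f,'w') as o:
            o.write('p cnf %d %d\n'%(nv,len(cls)+len(blocks))); o.write(''.join(' '.join(map(str,c))+' 0\n' for c in cls+blocks))
        rr=subprocess.run(['/opt/elan/bin/cadical','-q','-t','100',f],capture_output=True,text=True)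
        if rr.returncode!=10: print('T',T,'done',rr.returncode,len(found),flush=True); break
        val=set()
        for l in rr.stdout.splitlines():
            if l.startswith('v'): val|={int(x) for x in l[2:].split() if int(x)>0}
        w=tuple(''.join(LET[[l for l in range(4) if lit(r,k,l) in val][0]] for k in range(6)) for r in rs)
        found[w]=1; blocks.append([-lit(r,k,LET.index(w[j][k])) for j,r in enumerate(rs) for k in range(6)])
    return sorted(found)
def units(W,words,fn):
    rs=[r for r in W.rings if r.close]
    with open(fn,'w') as o: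
        for w in words:
            ls=[(r.I[k][l] if LET[l]==w[j][k] else -r.I[k][l]) for j,r in enumerate(rs) for k in range(6) for l in range(4)]
            o.write(' '.join(map(str,ls))+' | '+' '.join(w)+'\n')
if __name__=='__main__':
    nm=sys.argv[1]; W=get(nm); p=starts(W,1,tag=nm); print(nm,len(p)); units(W,p,'/tmp/tp/%s.units'%nm); pickle.dump(p,open('%s.pkl'%nm,'wb'))
    print(len({x[0] for x in p}), len({x[-1] for x in p}))

## FILE th.py
import sys
from hr import *
from bm import *
nm=sys.argv[1]
for T in [int(x) for x in sys.argv[2].split(',')]: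
    W=mk(nm); print(nm,'vars',W.C.n,'T',len(W.C.cl)); r=bmc(W,T,900,tag=nm)
    if r==10:
        if len(sys.argv)>3: model(W,T)
        break

## FILE chk.py
# chk.py TS INV [units]: checks with cadical that INV (clauses over current latches) is inductive in the form start / step / fin of 805:
#  start: Init & T & extra => Inv' ; step: Inv & -first & T(without extra) => Inv' ; fin: Inv & S & Bad-clauses unsat
import sys,subprocess,tempfile,os
def load(fn):
    d=dict(v=0,l=[],i=[],s=[],t=[],b=[])
    for ln in open(fn):
        x=ln.split()
        if not x: continue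
        if x[0]=='v': d['v']=int(x[1])
        elif x[0]=='l': d['l'].append((int(x[1]),int(x[2])))
        elif x[0]=='d': d['t'].append([int(y) for y in x[2:-1]])
        elif x[0] in 'istb': d[x[0]].append([int(y) for y in x[1:-1]])
    return d
def sat(n,cls):
    f='/tmp/chk_%d.cnf'%os.getpid()
    with open(f,'w') as o:
        o.write('p cnf %d %d\n'%(n,len(cls))); o.write(''.join(' '.join(map(str,c))+' 0\n' for c in cls))
    return subprocess.run(['/opt/elan/bin/cadical','-q','-n',f],capture_output=True).returncode
def main(ts,inv,us=[],extra=None):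
    d=load(ts); nx=dict(d['l']); ex=set()
    if extra: ex={tuple(sorted(int(y) for y in l.split()[:-1])) for l in open(extra)}
    T=[c for c in d['t'] if tuple(sorted(c)) not in ex]; X=[c for c in d['t'] if tuple(sorted(c)) in ex]
    I=[[int(y) for y in l.split()[:-1]] for l in open(inv)]; I=[c for c in I if c]+[[-1]]
    U=[[x] for x in us]; n=d['v']
    def neg_next():
        k=n; out=[]; big=[]
        for c in I:
            k+=1; big.append(k)
            for l in c: v=nx[abs(l)]; out.append([-k,(-v if l>0 else v)])
        return k,out+[big]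
    k,N=neg_next()
    r1=sat(k,d['i']+d['s']+T+X+U+N); r2=sat(k,d['s']+T+I+U+N); r3=sat(n,d['s']+I+U+d['b'])
    return r1,r2,r3,len(I),len(X)
if __name__=='__main__':
    ts,inv=sys.argv[1:3]; ex=sys.argv[3] if len(sys.argv)>3 else None
    us=[]
    if len(sys.argv)>5: us=[int(x) for x in open(sys.argv[4]).read().split('\n')[int(sys.argv[5])].split('|')[0].split()]
    print(main(ts,inv,us,ex))

## FILE farm.py
import sys,subprocess,time,os,random
# farm.py BASE word seconds [nproc]
base=sys.argv[1]; w=int(sys.argv[2]); tl=int(sys.argv[3]); npr=int(sys.argv[4]) if len(sys.argv)>4 else 4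
here=os.path.dirname(os.path.abspath(__file__)); os.chdir(here)
import hashlib
exe='pdr_'+hashlib.md5(open('pdr.cpp','rb').read()+open('sat2.h','rb').read()).hexdigest()[:8]
if not os.path.exists(exe): subprocess.run('g++ -O3 -march=native -std=c++17 -o %s.tmp%d pdr.cpp && mv %s.tmp%d %s'%(exe,os.getpid(),exe,os.getpid(),exe),shell=True,check=True)
if not os.path.exists(base+'.ts'): subprocess.run('gunzip -k -c %s.ts.gz > %s.ts.tmp%d && mv %s.ts.tmp%d %s.ts'%(base,base,os.getpid(),base,os.getpid(),base),shell=True,check=True)
units=[l.split('|') for l in open(base+'.units')]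
us,letters=units[w][0].split(),units[w][1].strip()
fn='%s_%d.ts'%(base,w)
open(fn,'w').write(open(base+'.ts').read()+''.join('i %s 0\ns %s 0\n'%(x,x) for x in us))
CF=[(1,2),(6,2),(3,2),(4,2),(12,2),(6,3)]
if npr==1: CF=CF[w%3:]+CF[:w%3]
t0=time.time(); procs=[]; n=0; res=None; rng=random.Random(w*7919+os.getpid())
quantum=[700,1200,1200,1200,1200,1200,1200,1200]
def start(n,slot):
    cf=CF[n%len(CF)]; e=dict(os.environ); e['CTG']=str(cf[0]); e['CTGD']=str(cf[1]); e['SEED']=str(rng.randrange(1,10**6))
    q=min(quantum[min(n//(2*npr),7)],max(10,tl-(time.time()-t0)))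
    inv='%s_%d.%d.inv'%(base,w,slot)
    return subprocess.Popen(['./'+exe,fn,inv,str(q)],stdout=subprocess.PIPE,stderr=subprocess.DEVNULL,text=True,env=e),cf,inv
slots=[]
for s in range(npr): slots.append(start(n,s)); n+=1
while res is None and time.time()-t0<tl+30:
    time.sleep(1)
    for s,(p,cf,inv) in enumerate(slots):
        if p.poll() is not None:
            o=p.stdout.read()
            if 'PROVED' in o: res=('PROVED',o.split('\n')[0]+' '+o.split('\n')[1],cf,inv); break
            if 'CEX' in o: res=('CEX',o,cf,inv); break
            if time.time()-t0>tl: continue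
            slots[s]=start(n,s); n+=1
    if time.time()-t0>tl and all(p.poll() is not None for p,_,_ in slots): break
for p,_,_ in slots:
    if p.poll() is None: p.kill()
secs=round(time.time()-t0,1)
if res is None: st,txt,inv='TIMEOUT','runs %d'%n,''
else:
    st,txt=res[0],res[1]; inv=open(res[3]).read() if res[0]=='PROVED' else res[1]
    if st=='PROVED':
        try:
            mx='mininv_'+hashlib.md5(open('mininv.cpp','rb').read()).hexdigest()[:8]
            if not os.path.exists(mx): subprocess.run('g++ -O3 -march=native -std=c++17 -o %s.tmp%d mininv.cpp && mv %s.tmp%d %s'%(mx,os.getpid(),mx,os.getpid(),mx),shell=True,check=True)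
            mf='%s_%d.min'%(base,w); r=subprocess.run(['./'+mx,fn,res[3],mf,'6','1','120'],capture_output=True,text=True,timeout=400)
            if r.returncode==0: txt+=' min '+r.stdout.strip(); inv=open(mf).read()
        except Exception as ex: print('mininv failed',ex)
print('RESULT %s word %d [%s] %s %s cfg %s %ss'%(base,w,letters,st,txt.replace(chr(10),' '),res[2] if res else '',secs),flush=True)
import hashlib
md5=hashlib.md5(open(base+'.ts','rb').read()).hexdigest()
ncl=inv.count(chr(10)) if st=='PROVED' else 0
q=@QINSERT INTO p032_inv(tag,i,word,status,secs,ncl,md5,inv) VALUES ('%s',%d,'%s','%s',%s,%d,'%s','%s')@Q%(base,w,letters,st,secs,ncl,md5,inv.replace(@Q'@Q,@Q@Q))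
open('q_%s_%d.sql'%(base,w),'w').write(q); subprocess.run(['team-sql','-f','q_%s_%d.sql'%(base,w)],capture_output=True)

-/
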