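import Mathlib.Logic.Basic

/-
# P032, toolbox 3: from an invariant to Lean modules

Working notes only; this file proves nothing and nothing imports it.
In the texts below @Q stands for the double quote character, @D for two hyphens in a row, @B for slash
hyphen, @E for hyphen slash, @F for a dot followed by the capital letters F S (replace them before use).
By helper805 (names, prep, extract, blk, emit, root2, cover, run_s2m), helper741 (inc2, root3), helper470
(reemit), helper242 (blk2: block from the output of the shared derivation).  Order of work: facts of the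
checker in numerals (mkenum.py, run with Lean), names.py (names of the variables), prep.py (system in
numerals), run_s2m.py WORD INV ROUNDS BLOCKSIZE or inc2.py (whole system in one derivation), reemit.py
(re-derives an emitted word with blkopt of toolbox 1).

## FILE names.py
import itertools,collections
COL='abcdef'
PRT=[[0,4,1,5],[0,5,1,4],[2,4,3,5],[2,5,3,4],[0,2,4,5],[0,4,2,5],[0,5,2,4],[0,3,4,5],[0,4,3,5],[0,5,3,4],[1,2,4,5],[1,4,2,5],[1,5,2,4],[1,3,4,5],[1,4,3,5],[1,5,3,4]]
class Num:
    @Q@Q@Qnumbering of 741 (Tp.lean)@Q@Q@Q
    BLK=704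
    def __init__(s,W):
        s.W=W; s.rid={r.nm:i for i,r in enumerate(W.rings)}; s.ring={r.nm:r for r in W.rings}
    def code(s,name):
        @Q@Q@Qname: tuple -> code, or None@Q@Q@Q
        t=None
        if name[0] in ('cur','nxt'): t=0 if name[0]=='cur' else 1; name=name[1:]
        if name==('first',): return 552+t
        if name[0]=='ct': return s.BLK*s.rid[name[1]]+488+6*s.rid[name[2]]+name[3]
        if name[0]=='done': return s.BLK*s.rid[name[1]]+536+8*t+s.rid[name[2]]
        r=s.rid.get(name[0])
        if r is None: return None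
        R=s.ring[name[0]]; b=s.BLK*r; k=name[1]
        if k=='X': return b+24*t+4*name[2]+name[3]
        if k=='C': return b+48+6*name[2]+name[3]
        if k=='Q4': return b+84+name[2]
        if k=='H': return b+90+name[2]
        if k=='D':
            for w,p in enumerate(PRT):
                a=[R.sg[j] for j in p]
                nm='|'.join(sorted([''.join(sorted(COL[x] for x in a[:2])),''.join(sorted(COL[x] for x in a[2:]))]))
                if nm==name[3]: return b+96+16*name[2]+w
            return None
        if k=='n': return b+192+18*name[2]+3*name[3]+2*t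
        if k=='n0': return b+192+18*name[2]+3*name[3]+1
        if k=='M': return b+300+36*t+6*name[2]+name[3]
        if k=='g': return b+372+4*t+2*R.P.index(name[2])+R.Q.index(name[3])
        if k=='I': return b+380+4*name[2]+name[3]
        if k=='nI': return b+404+6*name[2]+name[3]
        if k=='cnt': return b+440+12*t+3*(2*(name[2]-2)+name[3])+name[4]-1
        if k=='isT': return b+464+6*(2*(name[2]-2)+name[3])+name[4]
        if k=='pres': return b+554+2*(name[2]-2)+name[3]
        return s.extra(R,r,b,t,name)
    def extra(s,R,r,b,t,name):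
        k=name[1]
        if k=='F': return b+648+12*t+6*(name[2]-2)+name[3]
        if k=='IF': return b+672+6*(name[2]-2)+name[3]
        return None
def nxfun(cur):
    pass
def load_facts(fn):
    @Q@Q@Qfacts.txt -> dict frozenset(lits) -> list of constructor strings@Q@Q@Q
    D=collections.OrderedDict()
    for l in open(fn):
        t,c=l.rstrip('\n').split(';'); c=frozenset(int(x) for x in c.split())
        ty=t.split()[0]
        D.setdefault((ty,c),t)
    return D

## FILE prep.py
import sys,pickle,collections,time
sys.path.insert(0,'/tmp/conv')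
from names import *
import cover
def prep(W,num,factsfn,invfn,out,allow_py=True):
    D=load_facts(factsfn)
    cl,code,res=cover.cover(W,num,D,verbose=False)
    facts=[] # (ty, term, frozenset global lits)
    for (ty,c),t in D.items(): facts.append((ty,t,c))
    npy=0; missing=collections.Counter()
    for (ty,t,c,g),r in zip(cl,res):
        if r is None and t[0]!='frozen':
            missing[(ty,t[0])]+=1
            if allow_py and g is not None:
                if any((x^1) in g for x in g): continue
                facts.append((ty,'PY %d %s'%(npy,t[0]),g)); npy+=1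
    print('missing',dict(missing))
    inv=[]
    for l in open(invfn):
        t=[int(x) for x in l.split()]
        if not t: continue
        c=t[:-1] if t[-1]==0 else t
        gc=[]
        for x in c:
            y=2*code[abs(x)]+(1 if x<0 else 0); gc.append(y)
        inv.append(gc)
    return facts,inv
BLK=704
def ad(y,BLK=BLK):
    if y<24: return 24
    if y<300: return 2
    if y<336: return 36
    if y<376: return 4
    if y<440: return 0
    if y<452: return 12
    if y<544: return 8
    if y<553: return 1
    if y<648: return 0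
    if y<660: return 12
    return 0
def nxl(j,BLK):
    c=j//2
    return j+2*ad(c%BLK)
def build(facts,inv,BLK,out):
    @Q@Q@Qcompact variables, write pickle for extract@Q@Q@Q
    codes=sorted({x//2 for _,_,c in facts for x in c}|{x//2 for c in inv for x in c}|{nxl(x,BLK)//2 for c in inv for x in c})
    v={c:i+1 for i,c in enumerate(codes)}
    def dim(x): return v[x//2] if x%2==0 else -v[x//2]
    base=[[dim(x) for x in sorted(c)] for _,_,c in facts]
    G={'facts':facts,'base':base,'st':[i for i,f in enumerate(facts) if f[0]=='CS'],'tr':[i for i,f in enumerate(facts) if f[0]=='CL'],'ini':[i for i,f in enumerate(facts) if f[0]=='CI'],'bad':[i for i,f in enumerate(facts) if f[0]=='CB'],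
       'ginv':inv,'inv':[[dim(x) for x in c] for c in inv],'invn':[[dim(nxl(x,BLK)) for x in c] for c in inv],'n':len(codes),'codes':codes,'BLK':BLK}
    pickle.dump(G,open(out,'wb')); return G

## FILE mkenum.py
# generate a Lean enumerator of all fact instances ; usage mkenum.py out.lean  (reads RD def text from argv[2])
import sys
R='R'
six='6'
def rg(*xs): return xs
M3=[m for m in range(64) if bin(m).count('1')==3]
# parameter kinds
K={
 'r':'List.range G.R','y':'(List.range G.Y).map (fun x => G.R + x)','ry':'List.range (G.R + G.Y)','s':'List.range G.R','k':'List.range 6','m':'List.range 6','n':'List.range 6','l':'List.range 4','l2':'List.range 4','i':'List.range 6','j':'List.range 6','x2':'List.range 2','x3':'List.range 3','x4':'List.range 4','x5':'List.range 5','x8':'List.range 8','w16':'List.range 16','w2':'List.range 2','o5':'[1,5]','z1':'[0]','q':'[2,3]','i2':'List.range 2','x9':'List.range 9','x18':'List.range 18','x26':'List.range 27','w4':'List.range 4','z36':'List.range 40','A':'MA','B':'MB','x6':'List.range 6','a':'List.range 4','x7':'List.range 7'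
}
SPEC={
'CS':[('some','r k'),('uniq','r k l l2'),('legal','r k l'),('legal2','r s k l l2'),('opp','r x4 x3'),('conv','r x4 k'),('mix','r i2 q k'),('letlab','r k x2 w4'),('cntmono','r a'),('ysome','y k'),('yuniq','y k l l2'),('ylegal','y k l'),('ylegal2','y k l l2')],
'CL':[('some','r k'),('uniq','r k l l2'),('legal','r k l'),('legal2','r s k l l2'),('LC','x2 r k l i'),('le4','r k j'),('inside','r k x8'),('insideM','r k i2 q'),
 ('q4i','r k i j m n'),('q4e','r k x2'),('q4ge','r k i j m'),('dQ','r k w16'),('dC','r k w16 i'),('dd','r k w16 w16'),('dH','r k w16'),('hQ','r k'),('q4cases','r k'),('notri','r k'),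
 ('swap4','r k o5'),('flanksame','r k o5 x2 x4'),('flank4','r k o5 w4'),('flankr','r k o5 i2 q x5'),('s4word','r k w4 x2'),('single','r k o5 i'),('single2','r s k i'),
 ('notsub','r k o5 AB'),('notsub2','r s k AB'),('faceA','r k o5 AB x4'),('faceB','r k o5 AB j'),('faceC','r s k AB x4'),('faceD','r s k o5 AB j'),('faceE','r s k o5 AB j'),
 ('hubA','r k o5 i2 q j'),('hubB','r s k i2 q j'),('insubA','r k o5 w16 x8'),('insubB','r s k w16 x8'),('two','r s k i j m n x6'),
 ('n0L','r x4 k'),('n0R','r x4 k'),('opp','r x4 x9'),('conv','r x4 x18 x26 x26'),('convM','r x4 k x26 x26'),('convM2','r x4 k z36 z36'),('M','r x4 k x3'),('mix','r i2 q k'),('line1','r i2 q k m'),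
 ('rkind','r i2 q k w4'),('mkind','r i2 q k x3 x2'),('lab1','r x4 k'),('pairlab','r k x2 w4'),('letlab','r k x2 w4'),('gline','r i2 q k'),('gset','r i2 q k'),('gmono','r x4'),
 ('E1','r a k i'),('E2','r a k'),('E3','r a k x2'),('absent','r a k'),('pres','r a k'),('c1','x2 r a k'),('c2','x2 r a k'),('c3','x2 r a k m'),('c4','x2 r a k'),('c5','x2 r a k m'),('c6','x2 r a k'),('c7','x2 r a k m'),('c8','x2 r a k m n'),
 ('c9','r a x2'),('c10','r a'),('c11','r a'),('c12','r a x6'),('vis','x2 r a k x2'),('norz','r k w16'),('first',''),('anchor','r s k x3'),('done','r s k m x5'),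
 ('ident','r x4 k i x4'),('identD','r x4 k w16 w16 x4'),('ctC','r s k i x2'),('ctD','r s k w16 x2'),('same','r s k i x4'),('sameH','r s k x4'),('sameD','r s k w16 w16 x4'),('agree','r s k i x4'),('tight','r s k x2 x2 x2 x4'),
 ('ysome','y k'),('yuniq','y k l l2'),('ylegal','y k l'),('ylegal2','y k l l2'),('nodir','y k x2'),('tpY','y x2 k l x2'),('sameY','y x2 l i x2'),('sameZ','y x2 l'),('tpkeep','r x2 k x2'),('tpend','r x2 x2 k x2'),
 ('anch','r x2 i'),('anchX','r x2 x2'),('anchD','r w16'),('nc','r x2 k x2'),('ncD','r x2 k w16'),('out2','r i2 q k m x2 q')],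
'CI':[('initF','r x2 k x2'),('initX','ry k l x2'),('initn','r x4 k x2'),('M0','r x4 k'),('g0','r x4'),('cnt0','r a x2'),('done0','r s'),('first','')],
'CB':[('closeF','r x2 k x2'),('closeX','ry k l x2'),('closen','r x4 k x2'),('cntend1','r a'),('cntend2','r a'),('cntend','r a'),('doneend','r s'),('first','')],
}
def gen(spec,imports,rddef,out,skip=()):
    o=[]
    for im in imports: o.append('import '+im)
    o.append('set_option autoImplicit false\nset_option maxRecDepth 10000\nopen Vale.Agent.P032.R2.H741.Tp\n')
    o.append(rddef)
    o.append('''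
def pc1 (n : Nat) : Nat := (List.range 6).foldl (fun a i => a + (n >>> i) % 2) 0
def MAB : List (Nat × Nat) := Id.run do
  let mut r := []
  for B in List.range 64 do
    if pc1 B == 3 then
      for A in List.range 64 do
        if A != 0 && (A &&& B) == A then r := (A, B) :: r
  return r
def emOut (h : IO@F.Stream) (t : String) (ps : List Nat) (ok : Bool) (c : List Nat) : IO Unit := do
  if ok then h.putStrLn (t ++ (ps.foldl (fun s n => s ++ @Q @Q ++ toString n) @Q@Q) ++ @Q;@Q ++ (c.foldl (fun s n => s ++ @Q @Q ++ toString n) @Q@Q))
''')
    fns=[]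
    for ty,lst in spec.items():
        for (nm,ps) in lst:
            fn='e_%s_%s'%(ty,nm); fns.append(fn)
            o.append('def %s (h : IO@F.Stream) : IO Unit := do'%fn)
            ind='  '; vs=[]
            for t,p in enumerate(ps.split()):
                if p=='AB':
                    o.append(ind+'for (v%da, v%db) in MAB do'%(t,t)); vs+=['v%da'%t,'v%db'%t]
                else:
                    o.append(ind+'for v%d in %s do'%(t,K[p])); vs.append('v%d'%t)
                ind+='  '
            term='(%s.%s%s)'%(ty,nm,''.join(' '+v for v in vs))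
            o.append(ind+'emOut h @Q%s .%s@Q [%s] (%s.ok G) (%s.cl G)'%(ty,nm,', '.join(vs),term,term))
    o.append('def main : IO Unit := do\n  let h ← IO.getStdout\n'+'\n'.join('  %s h'%f for f in fns))
    open(out,'w').write('\n'.join(o)+'\n')
if __name__=='__main__':
    rd=open(sys.argv[2]).read()
    gen(SPEC,['Vale.Agent.P032.R2.H741.TpC'],rd,sys.argv[1])

## FILE core2.py
import random
import extract
def shuf(cls,n,rng,flip=True):
    p=list(range(1,n+1)); rng.shuffle(p); s=[1 if (not flip or rng.random()<0.5) else -1 for _ in range(n)]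
    m={i+1:p[i]*s[i] for i in range(n)}
    order=list(range(len(cls))); rng.shuffle(order)
    f=lambda x:m[x] if x>0 else -m[-x]
    out=[]
    for k in order:
        c=[f(x) for x in cls[k]]; rng.shuffle(c); out.append(c)
    inv={m[i]:i for i in m}; inv.update({-m[i]:-i for i in m})
    return out,order,inv
def core(cls,n,tag,rounds=24):
    @Q@Q@Qsame output format as extract.core@Q@Q@Q
    r=extract.run_lrat(cls,n,tag)
    if r is None: return None
    used,steps=r; rng=random.Random(len(cls)*7+rounds)
    cost=lambda used,steps:sum(len(s[2])+1 for s in steps)+2*len(used)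
    def pack(used,steps,back,inv):
        m={j:back(j) for j in used}
        return [m[j] for j in used],[(i,[inv(x) for x in l],[('o',m[x]) if x in m else ('l',x) for x in hh]) for i,l,hh in steps]
    bc=cost(used,steps); bu,bs=pack(used,steps,lambda j:j-1,lambda x:x)
    cur=sorted(bu); fail=0
    for t in range(rounds):
        sub=[cls[k] for k in cur]; vs=sorted({abs(x) for c in sub for x in c}); vm={x:k+1 for k,x in enumerate(vs)}
        sub2=[[(vm[x] if x>0 else -vm[-x]) for x in c] for c in sub]
        o,order,inv=shuf(sub2,len(vs),rng,t%2==0)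
        r=extract.run_lrat(o,len(vs),tag)
        if r is None: continue
        used,steps=r; c=cost(used,steps)
        if c<bc:
            def iv(x):
                y=inv[x] if x in inv else -inv[-x]
                return vs[y-1] if y>0 else -vs[-y-1]
            bc=c; bu,bs=pack(used,steps,lambda j:cur[order[j-1]],iv); cur=sorted(bu); fail=0
        else: fail+=1
        if fail>=max(8,rounds//2): break
    h=sum(len(s[2])+1 for s in bs)
    # order of used must be a list with index function: keep sorted by clause index
    us=sorted(bu)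
    return h,us,bs

## FILE extract.py
import sys,subprocess,os,pickle,time,random
from multiprocessing import Pool
CAD='/opt/elan/bin/cadical'
def run_lrat(cls,n,tag,opts=(),tl=300):
    f='/tmp/conv/w/%s.cnf'%tag; g='/tmp/conv/w/%s.lrat'%tag
    with open(f,'w') as o:
        o.write('p cnf %d %d\n'%(n,len(cls))); o.write(''.join(' '.join(map(str,c))+' 0\n' for c in cls))
    r=subprocess.run([CAD,'-q','-n','-t',str(tl),'@Dlrat','@Dno-binary']+list(opts)+[f,g],capture_output=True,text=True)
    if r.returncode!=20: return None
    steps={}; last=None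
    for l in open(g):
        t=l.split()
        if len(t)>1 and t[1]=='d': continue
        i=int(t[0]); k=t.index('0',1); lits=[int(x) for x in t[1:k]]; h=[int(x) for x in t[k+1:len(t)-1]]
        steps[i]=(lits,h)
        if k==1: last=i; break
    if last is None:
        for j,c in enumerate(cls):
            if not c: return [j+1],[]
        return None
    need=set(); st=[last]
    while st:
        i=st.pop()
        if i in need: continue
        need.add(i)
        if i in steps: st.extend(steps[i][1])
    used=sorted(i for i in need if i<=len(cls)); order=sorted(i for i in need if i>len(cls))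
    return used,[(i,steps[i][0],steps[i][1]) for i in order]
def core(cls,n,tag,rounds=6):
    @Q@Q@Qreturns (hints, used indices, steps) ; steps: (id, lits, hints) hints ('o',idx in cls) or ('l',id)@Q@Q@Q
    idx=list(range(len(cls))); best=None; same=0
    for r in range(rounds):
        opts=() if r==0 else (('@Dseed=%d'%r,) if r%2 else ('@Dseed=%d'%r,'@Dunsat'))
        res=run_lrat([cls[i] for i in idx],n,tag,opts)
        if res is None:
            if r==0: return None
            continue
        used,steps=res; h=sum(len(s[2])+1 for s in steps)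
        m={j:idx[j-1] for j in used}
        if best is None or (h+3*len(used))<(best[0]+3*len(best[1])): best=(h,[m[j] for j in used],[(i,l,[('o',m[x]) if x in m else ('l',x) for x in hh]) for i,l,hh in steps])
        ni=[idx[j-1] for j in used]
        if len(ni)<len(idx): idx=ni
        else:
            same+=1
            if same>2: break
    return best
G=None
def init(path):
    global G
    G=pickle.load(open(path,'rb'))
def task(a):
    kind,i,rounds=a
    base=G['base'] # list of clauses (dimacs, compact vars)
    inv=G['inv']; invn=G['invn']; n=G['n']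
    tag='%d_%s%d'%(os.getpid(),kind,i)
    if kind=='s':
        X=G.get('ex',[])
        A=[('F',k) for k in G['st']]+[('F',k) for k in G['tr']]+[('V',k) for k in range(len(inv))]+[('X',k) for k in range(len(X))]+[('N',j) for j in range(len(invn[i]))]
        cl=[base[k] for t,k in A[:len(G['st'])+len(G['tr'])]]+inv+X+[[-l] for l in invn[i]]
    elif kind=='e':
        A=[('F',k) for k in G['st']]+[('F',k) for k in G['bad']]+[('V',k) for k in range(len(inv))]
        cl=[base[k] for t,k in A[:len(G['st'])+len(G['bad'])]]+inv
    elif kind=='i':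
        Un=G.get('un',[])
        A=[('F',k) for k in G['st']]+[('F',k) for k in G['ini']]+[('U',k) for k in range(len(Un))]+[('N',j) for j in range(len(inv[i]))]
        cl=[base[k] for t,k in A[:len(G['st'])+len(G['ini'])]]+Un+[[-l] for l in inv[i]]
    import core2
    b=core2.core(cl,n,tag,rounds)
    for e in ('cnf','lrat'):
        try: os.remove('/tmp/conv/w/%s.%s'%(tag,e))
        except OSError: pass
    if b is None: return (kind,i,None)
    h,used,steps=b; UI={u:k for k,u in enumerate(used)}
    return (kind,i,(h,[A[u] for u in used],[cl[u] for u in used],[(sid,l,[(x[0],UI[x[1]]) if x[0]=='o' else x for x in hh]) for sid,l,hh in steps]))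

## FILE blk.py
import sys,os,pickle
from emit import term,lst,lst2
from prep import nxl
def simulate(clause,hints,get):
    @Q@Q@QRUP check of clause (set of lits, global) with hint ids; returns trimmed hints or None@Q@Q@Q
    false=set(clause); out=[]
    for h in hints:
        c=get(h); rem=[x for x in c if x not in false]
        if not rem: out.append(h); return out
        if len(rem)>1: return None
        if (rem[0]^1) in false: continue # literal already true
        out.append(h); false.add(rem[0]^1)
    return None
def mkblock(G,R,bl,ixmap):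
    facts=G['facts']; codes=G['codes']; BLK=G['BLK']
    glob=lambda x:2*codes[abs(x)-1]+(1 if x<0 else 0)
    fs=[];ft=[];iv=[]; pos={}
    for i in bl:
        for a in R['s',i][1]:
            if a[0]=='N' or a in pos: continue
            pos[a]=None
            if a[0]=='F': (fs if facts[a[1]][0]=='CS' else ft).append(a)
            else: iv.append(a)
    gcl=lambda a:G['ginv'][a[1]] if a[0]=='V' else G['ginvx'][a[1]]
    fs.sort(key=lambda a:a[1]); ft.sort(key=lambda a:a[1]); iv.sort()
    order=fs+ft+iv
    for k,a in enumerate(order): pos[a]=k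
    cl=[frozenset(facts[a[1]][2]) if a[0]=='F' else frozenset(gcl(a)) for a in order]
    a0=len(cl); known={}
    for k,c in enumerate(cl): known.setdefault(c,k)
    hints=[None]*a0; rd=[]
    for i in bl:
        A=R['s',i][1]; steps=R['s',i][3]; cn=[nxl(x,BLK) for x in G['ginv'][i]]
        dep={}; num={}
        last=None
        # steps in order
        for (sid,l,hh) in steps:
            d=set(); H=[]
            for x in hh:
                if x[0]=='o':
                    a=A[x[1]]
                    if a[0]=='N': d.add(cn[a[1]])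
                    else: H.append(pos[a])
                else: d|=dep[x[1]]; H.append(num[x[1]])
            c=frozenset(glob(x) for x in l)|frozenset(d)
            dep[sid]=d
            # drop tautologies: learned lits may contain negation of a c' literal
            if any((x^1) in c for x in c):
                # weaken: clause contains x and not x : such a step is useless under not c'
                d2=set(x for x in d if (x^1) in c); 
                c=frozenset(x for x in c if not ((x^1) in d2))
            t=simulate(c,H,lambda h:cl[h])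
            if t is None:
                # try again with all literals of c'
                c2=frozenset(x for x in c if (x^1) not in cn)|frozenset(cn); t=simulate(c2,H,lambda h:cl[h]); assert t is not None,(i,sid)
                c=c2; dep[sid]=set(cn)
            if c in known: num[sid]=known[c]; continue
            num[sid]=len(cl); known[c]=len(cl); cl.append(c); hints.append(t)
            last=num[sid]
        last=num[steps[-1][0]]
        rd.append((last,sorted(cl[last])))
        assert cl[last]<=set(cn),(i,cl[last],cn)
    # garbage: keep only needed learned clauses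
    need=set(); st=[r[0] for r in rd]
    while st:
        x=st.pop()
        if x in need or x<a0: continue
        need.add(x); st.extend(hints[x])
    keep=list(range(a0))+[x for x in range(a0,len(cl)) if x in need]; nn={x:k for k,x in enumerate(keep)}
    cl2=[cl[x] for x in keep]; h2=[[nn[y] for y in hints[x]] for x in keep[a0:]]; rd=[(nn[x],c) for x,c in rd]
    # local variables
    seen={}; cod=[]
    for c in cl2:
        for x in c:
            if x//2 not in seen: seen[x//2]=len(cod); cod.append(x//2)
    N=len(cod); W=sum(c<<(12*i) for i,c in enumerate(cod)); assert all(c<4096 for c in cod)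
    loc=lambda x:2*seen[x//2]+x%2
    # order of literals in ls: as in global fact clause is irrelevant
    ls=[[loc(x) for x in sorted(c)] for c in cl2[:a0]]
    M=[sum(1<<(seen[x//2]+(N if x%2 else 0)) for x in c) for c in cl2]
    K=len(M); w=max(2,K.bit_length()); L=2*N
    return dict(fs=[term(facts[a[1]][1]) for a in fs],ft=[term(facts[a[1]][1]) for a in ft],ix=[ixmap[a[1]] if a[0]=='V' else ixmap['X']+a[1] for a in iv],a=a0,K=K,N=N,W=W,ls=ls,M=M,h=h2,w=w,L=L,rd=[(p,[loc(x) for x in c]) for p,c in rd])
def emit_block(D,b,mod,title,HDR,segh=40000,axn=400,BN='B'):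
    o=['import %s.Base\nimport Vale.Agent.P032.R2.H805.Blk\n'%mod,'@B!\n# P032: %s: block %d\n@E\n'%(title,b),HDR,'namespace %s.Blk%d\n'%(mod,b),'open Vale.Agent.P032.R2.H741.Tp\nopen Vale.Agent.P032.R2.H805.Step\nopen Vale.Agent.P032.R2.H805.Rup\n']
    K=D['K']; L=D['L']; N=D['N']; M=D['M']; w=D['w']; a=D['a']
    depth=0
    while (((K>>depth)+1)*L>32768) and (K>>depth)>1: depth+=1
    blocks=[]; trees=[]
    def build(idx,dep):
        if dep==0:
            x=0
            for k,h in enumerate(idx): x|=M[h]<<(L*k)
            blocks.append(x); return '(.leaf t%d)'%(len(blocks)-1)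
        return '(.node %s %s)'%(build(idx[0::2],dep-1),build(idx[1::2],dep-1))
    rootT=build(list(range(K)),depth)
    for k,x in enumerate(blocks): o.append('@B- part of the table @E\ndef t%d : ℕ := %s'%(k,hex(x)))
    o.append('@B- the table @E\ndef tab : Tab := %s\n'%rootT)
    o.append('@B- the local variables @E\ndef W : ℕ := %s\n'%hex(D['W']))
    # loading in parts
    seq=[('s',f) for f in D['fs']]+[('l',f) for f in D['ft']]+[('i',x) for x in D['ix']]
    assert len(seq)==a
    parts=[(x,min(a,x+axn)) for x in range(0,a,axn)]
    for j,(x,y) in enumerate(parts):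
        sub=seq[x:y]
        o.append('theorem ld%d : ldb G %s [%s]\n    [%s]\n    [%s] W\n    %s\n    %d tab %d %d = true := by\n  decide +kernel\n'%(j,BN,', '.join(f for t,f in sub if t=='s'),', '.join(f for t,f in sub if t=='l'),', '.join(str(f) for t,f in sub if t=='i'),lst2(D['ls'][x:y]),N,x,y))
    # segments
    segs=[]; cur=[]; i0=a; i=a
    for h in D['h']:
        hh=[x+1 for x in h]+[0]
        if cur and len(cur)+len(hh)>segh: segs.append((i0,i,cur)); cur=[]; i0=i
        cur+=hh; i+=1
    if cur: segs.append((i0,i,cur))
    assert i==K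
    cn=0; tot=0
    for j,(x,y,digs) in enumerate(segs):
        m0=max(1,1536//w); T=len(digs); pieces=max(1,-(-T//m0)); tot+=T
        if pieces<=16: q=pieces; m=-(-T//q)
        else: q=16; m=m0
        Dg=q*m; names=[]
        for t in range(0,T,Dg):
            c=0
            for t_,g in enumerate(digs[t:t+Dg]): c|=g<<(w*t_)
            names.append('c%d'%cn); o.append('@B- code @E\ndef c%d : ℕ := %s'%(cn,hex(c))); cn+=1
        o.append('theorem g%d : seg %d %d %d %d tab [%s] %d %d = true := by decide +kernel\n'%(j,N,w,m,q,', '.join(names),x,y))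
    o.append('theorem rd : rdb W %d tab %d b%d [%s] = true := by decide +kernel\n'%(N,K,b,', '.join('(%d, %s)'%(p,lst(c)) for p,c in D['rd'])))
    o.append('@B- the clauses of block %d hold after the instant @E\ntheorem blk {S : Sem} (A : Ax G S) (H : Hds (val S) %s) : ∀ c ∈ b%d, Hd (val S) (c.map nxl) := by'%(b,BN,b))
    o.append('  have h0 : Ok %d (lv (val S) W) tab 0 := ok_zero'%N)
    k=0
    for j in range(len(parts)): o.append('  have h%d := ldb_sound A H ld%d h%d'%(k+1,j,k)); k+=1
    for j in range(len(segs)): o.append('  have h%d := seg_sound g%d h%d'%(k+1,j,k)); k+=1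
    o.append('  exact rdb_sound h%d rd\n\nend %s.Blk%d\n'%(k,mod,b))
    return '\n'.join(o),tot

## FILE blk2.py
# mkblock of 805's blk.py with shared derivations (incx). usage: import blk2; D=blk2.mkblock(G,bl,ixmap,rounds=10)   (R not needed)
import os,subprocess,re
from emit import term
from prep import nxl
EXE=os.environ.get('INCX',os.path.join(os.path.dirname(os.path.abspath(__file__)),'incx'))
W=os.environ.get('INCW','/tmp/conv/w')
def run(base,targets,n,tag,rounds,seed):
    @Q@Q@Qbase: list of clauses (dimacs), targets: list of clauses -> used ids, steps [(sid,lits,hints)], res@Q@Q@Q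
    os.makedirs(W,exist_ok=True); f='%s/%s.inc'%(W,tag); g='%s/%s.incout'%(W,tag)
    with open(f,'w') as o:
        o.write('n %d\n'%n); o.write(''.join('b '+' '.join(map(str,c))+' 0\n' for c in base)); o.write(''.join('t '+' '.join(map(str,c))+' 0\n' for c in targets))
    r=subprocess.run([EXE,f,g,str(rounds),str(seed)],capture_output=True,text=True)
    if r.returncode!=0: return None
    used=[];steps=[];res={}
    for l in open(g):
        t=l.split()
        if t[0]=='u': used=[int(x) for x in t[1:]]
        elif t[0]=='s':
            k=t.index('0',2); steps.append((int(t[1]),[int(x) for x in t[2:k]],[int(x) for x in t[k+1:-1]]))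
        else: res[int(t[1])]=int(t[2])
    for x in (f,g):
        try: os.remove(x)
        except OSError: pass
    return used,steps,res,r.stdout.strip()
def mkblock(G,bl,ixmap,rounds=10,seed=1,tag=None,verbose=True):
    facts=G['facts']; codes=G['codes']; BLK=G['BLK']
    glob=lambda x:2*codes[abs(x)-1]+(1 if x<0 else 0)
    fid=G['st']+G['tr']; ninv=len(G['inv'])
    base=[G['base'][k] for k in fid]+G['inv']; tg=[G['invn'][i] for i in bl]
    out=run(base,tg,G['n'],tag or 'b%d_%d'%(os.getpid(),bl[0]),rounds,seed); assert out is not None,('incx failed',bl[0])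
    used,steps,res,msg=out
    if verbose: print('incx',msg,flush=True)
    A={u:(('F',fid[u]) if u<len(fid) else ('V',u-len(fid))) for u in used}
    fs=sorted((u for u in used if A[u][0]=='F' and facts[A[u][1]][0]=='CS'),key=lambda u:A[u][1]); ft=sorted((u for u in used if A[u][0]=='F' and facts[A[u][1]][0]!='CS'),key=lambda u:A[u][1]); iv=sorted((u for u in used if A[u][0]=='V'),key=lambda u:A[u][1])
    # invariant clauses outside ixmap are not allowed
    for u in iv: assert A[u][1] in ixmap,('clause not needed but used',A[u][1])
    order=fs+ft+iv; pos={u:k for k,u in enumerate(order)}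
    cl=[frozenset(facts[A[u][1]][2]) if A[u][0]=='F' else frozenset(G['ginv'][A[u][1]]) for u in order]
    a0=len(cl); h2=[]
    for sid,l,h in steps:
        h2.append([pos[x] for x in h]); pos[sid]=len(cl); cl.append(frozenset(glob(x) for x in l))
    rd=[]
    for t,i in enumerate(bl):
        p=pos[res[t]]; cn=set(nxl(x,BLK) for x in G['ginv'][i]); assert cl[p]<=cn,(i,cl[p],cn); rd.append((p,sorted(cl[p])))
    # local check of the derivation (RUP)
    for k,h in enumerate(h2):
        false=set(cl[a0+k]); ok=False
        for n_,x in enumerate(h):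
            rem=[y for y in cl[x] if y not in false]
            if not rem: ok=(n_==len(h)-1); break
            assert len(rem)==1,(k,'not unit')
            false.add(rem[0]^1)
        assert ok,(k,'no conflict')
    seen={}; cod=[]
    for c in cl:
        for x in c:
            if x//2 not in seen: seen[x//2]=len(cod); cod.append(x//2)
    N=len(cod); Wd=sum(c<<(12*i) for i,c in enumerate(cod)); assert all(c<4096 for c in cod)
    loc=lambda x:2*seen[x//2]+x%2
    ls=[[loc(x) for x in sorted(c)] for c in cl[:a0]]
    M=[sum(1<<(seen[x//2]+(N if x%2 else 0)) for x in c) for c in cl]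
    K=len(M); w=max(2,K.bit_length()); L=2*N
    return dict(fs=[term(facts[A[u][1]][1]) for u in fs],ft=[term(facts[A[u][1]][1]) for u in ft],ix=[ixmap[A[u][1]] for u in iv],a=a0,K=K,N=N,W=Wd,ls=ls,M=M,h=h2,w=w,L=L,rd=[(p,[loc(x) for x in c]) for p,c in rd])
def closure(G,rounds=2):
    @Q@Q@Qneeded clauses of the invariant = all (minimised by mininv before); returns range@Q@Q@Q
    return list(range(len(G['inv'])))

## FILE emit.py
import sys,pickle,os,collections
def hexs(x): return hex(x)
def lst(c): return '['+', '.join(map(str,c))+']'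
def lst2(c): return '['+', '.join('['+','.join(map(str,x))+']' for x in c)+']'
class Cert:
    @Q@Q@Qlocal certificate: axioms (list of global-literal clauses in order), steps@Q@Q@Q
    def __init__(s,axg,steps,axid):
        # axg: list of (global literal list) ; steps: list of (id, [dimacs compact lits]->global lits, hints) ; axid: hint ('o',pos) -> axiom position
        s.axg=axg; codes=[]; seen={}
        for c in axg:
            for x in c:
                if x//2 not in seen: seen[x//2]=len(codes); codes.append(x//2)
        for _,l,_ in steps: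
            for x in l:
                if x//2 not in seen: seen[x//2]=len(codes); codes.append(x//2)
        s.codes_=codes; N=s.N=max(1,len(codes))
        assert all(c<4096 for c in codes)
        s.W=sum(c<<(12*i) for i,c in enumerate(codes))
        loc=lambda x:2*seen[x//2]+x%2
        s.ls=[[loc(x) for x in c] for c in axg]
        msk=lambda c:sum(1<<(seen[x//2]+(N if x%2 else 0)) for x in set(c))
        M=[msk(c) for c in axg]+[msk(l) for _,l,_ in steps]
        num={('l',st[0]):len(axg)+i for i,st in enumerate(steps)}
        K=len(M); s.a=len(axg); s.k=K-1; w=s.w=max(2,K.bit_length())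
        digs=[]
        for i,(sid,l,h) in enumerate(steps):
            for x in h:
                p=axid[x[1]] if x[0]=='o' else num[x]
                assert p<s.a+i
                digs.append(p+1)
            digs.append(0)
        s.nh=len(digs)
        m0=max(1,1536//w); T=len(digs); pieces=max(1,-(-T//m0))
        if pieces<=16: q=pieces; m=-(-T//q)
        else: q=16; m=m0
        s.m=m; s.q=q; D=q*m; s.zc=[]
        for j in range(0,T,D):
            c=0
            for t_,g in enumerate(digs[j:j+D]): c|=g<<(w*t_)
            s.zc.append(c)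
        L=2*N; depth=0
        while (((K>>depth)+1)*L>32768) and (K>>depth)>1: depth+=1
        def build(idx,dep):
            if dep==0:
                x=0
                for k,h in enumerate(idx): x|=M[h]<<(L*k)
                return '(.leaf %s)'%hexs(x)
            return '(.node %s %s)'%(build(idx[0::2],dep-1),build(idx[1::2],dep-1))
        s.tab=build(list(range(K)),depth)
    def args(s):
        @Q@Q@QW ls N w m q d codes a k@Q@Q@Q
        return '%s\n    %s\n    %d %d %d %d\n    %s\n    [%s] %d %d'%(hexs(s.W),lst2(s.ls),s.N,s.w,s.m,s.q,s.tab,', '.join(hexs(z) for z in s.zc),s.a,s.k)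
def term(t):
    # 'CL .dd 0 1 2' -> '.dd 0 1 2'
    return t.split(' ',1)[1]
def mkcert(G,kind,i,b,ixmap):
    @Q@Q@Qreturns (terms CS, terms 2nd, ix, Cert)@Q@Q@Q
    h,A,cls,steps=b; facts=G['facts']; codes=G['codes']
    glob=lambda x:2*codes[abs(x)-1]+(1 if x<0 else 0)
    oth={'s':'CL','e':'CB','i':'CI'}[kind]
    P=[(0 if facts[a[1]][0]=='CS' else 1,u) if a[0]=='F' else ((2,u) if a[0]=='V' else (3,u)) for u,a in enumerate(A)]
    order=[u for _,u in sorted(P)]
    fs=[u for u in order if A[u][0]=='F' and facts[A[u][1]][0]=='CS']; ft=[u for u in order if A[u][0]=='F' and facts[A[u][1]][0]==oth]; iv=[u for u in order if A[u][0]=='V']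
    nn=[u for u in order if A[u][0]=='N']
    axg=[sorted(facts[A[u][1]][2]) for u in fs]+[sorted(facts[A[u][1]][2]) for u in ft]+[G['ginv'][A[u][1]] for u in iv]
    axid={u:k for k,u in enumerate(fs+ft+iv)}
    if kind in 'si':
        c=G['ginv'][i]; from prep import nxl
        cc=[nxl(x,G['BLK']) for x in c] if kind=='s' else c
        if kind=='i' and G.get('gun'):
            b0=len(axg)
            for x in G['gun']: axg.append(x)
            for u,a in enumerate(A):
                if a[0]=='U': axid[u]=b0+a[1]
        base=len(axg)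
        for j,x in enumerate(cc): axg.append([x^1])
        for u in nn: axid[u]=base+A[u][1]
    st=[(sid,[glob(x) for x in l],hh) for sid,l,hh in steps]
    C=Cert(axg,st,axid)
    return [term(facts[A[u][1]][1]) for u in fs],[term(facts[A[u][1]][1]) for u in ft],[ixmap[A[u][1]] for u in iv],C

## FILE root2.py
import sys,os,pickle
sys.path.insert(0,'/tmp/conv')
import emit,blk,root
from root import HDR
def write(G,R,need,ns,outdir,rdimport,rdname,ini_used,ini_rest,IR,title,bs=64,units=(),order=None,ex=None):
    mod='Vale.Agent.P032.R2.H805.'+ns; os.makedirs(outdir,exist_ok=True)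
    for f in os.listdir(outdir):
        if f.endswith('.lean'): os.remove(outdir+'/'+f)
    order=list(need) if order is None else order
    nb=-(-len(order)//bs); assert bs<=64
    ixmap={i:64*(k//bs)+k%bs for k,i in enumerate(order)}
    ixmap['X']=64*nb
    blocks=[order[b*bs:(b+1)*bs] for b in range(nb)]; BN='BX' if ex else 'B'
    op='open Vale.Agent.P032.R2.H741.Tp\nopen Vale.Agent.P032.R2.H805.Step\n'
    o=[rdimport+'import Vale.Agent.P032.R2.H805.Step\n','@B!\n# P032: %s: the invariant\n@E\n'%title,HDR,'namespace %s\n'%mod,op]
    o.append('@B- the rings @E\nabbrev G : RD := %s\n'%rdname if rdimport else rdname)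
    for b,bl in enumerate(blocks):
        o.append('@B- block %d of the invariant @E\ndef b%d : List (List ℕ) :=\n  ['%(b,b)+',\n   '.join(emit.lst(G['ginv'][i]) for i in bl)+']\n')
    o.append('@B- the invariant in blocks @E\ndef B : List (List (List ℕ)) := ['+', '.join('b%d'%b for b in range(nb))+']\n')
    if ex:
        o.append('@B- extra clauses about the first instant @E\ndef ex : List (List ℕ) := %s\n'%emit.lst2(ex))
        o.append('@B- the same for all instants @E\ndef exF : List (List ℕ) := %s\n'%emit.lst2([[1105]+c for c in ex]))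
        o.append('@B- invariant and extra clauses @E\ndef BX : List (List (List ℕ)) := B ++ [exF]\n')
        o.append('@B- the invariant @E\ndef inv : List (List ℕ) := [1105] :: B.flatten\n')
        if units: o.append('@B- the start word @E\ndef units : List (List ℕ) := %s\n'%emit.lst2(units))
    else: o.append('@B- the invariant @E\ndef inv : List (List ℕ) := B.flatten\n')
    o.append('theorem inv_st : ∀ c ∈ inv, ∀ j ∈ c, j / 2 < 704 * (G.R + G.Y) ∧ isSt (j / 2 % 704) = true :=\n  stc_sound (by decide +kernel)\n')
    o.append('end %s\n'%mod)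
    open(outdir+'/Base.lean','w').write('\n'.join(o))
    tot=0; nf=0
    for b,bl in enumerate(blocks):
        D=blk.mkblock(G,R,bl,ixmap); s,t=blk.emit_block(D,b,mod,title,HDR,BN=BN); tot+=t; nf+=D['a']
        open(outdir+'/P%d.lean'%b,'w').write(s)
        print('block',b,'clauses',len(bl),'axioms',D['a'],'K',D['K'],'N',D['N'],'hints',t,'size',len(s),flush=True)
    o=['import %s.P%d'%(mod,b) for b in range(nb)]+(['import Vale.Agent.P032.R2.H805.Cov'] if units else [])+['','@B!\n# P032: %s: start, step, end\n@E\n'%title,HDR,'namespace %s\n'%mod,op+'open Vale.Agent.P032.R2.H805.Rup\n','section\n','variable {S : Sem}\n']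
    o.append('theorem stepB (A : Ax G S) (H : Hds (val S) '+BN+') : Hns (val S) B :=\n  '+'\n  '.join('hns_cons (Blk%d.blk A H) ('%b for b in range(nb))+'hns_nil'+')'*nb+'\n')
    if ex:
        o.append('''theorem f1 (A : Ax G S) : Hd (val S) (List.map nxl [1105]) := A.l .first rfl

theorem hx (h : Hd (val S) [1105]) (H : Hds (val S) B) : Hds (val S) BX := by
  intro b hb
  rcases List.mem_append.1 hb with h1 | h1
  · exact H b h1
  · rw [List.mem_singleton.1 h1]
    have h2 : ∀ c ∈ exF, (1105 : ℕ) ∈ c := by decide
    intro c hc
    obtain ⟨j, hj, hl⟩ := h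
    rw [List.mem_singleton] at hj
    exact ⟨1105, h2 c hc, hj ▸ hl⟩

theorem hx2 (h : ∀ c ∈ ex, Hd (val S) c) (H : Hds (val S) B) : Hds (val S) BX := by
  intro b hb
  rcases List.mem_append.1 hb with h1 | h1
  · exact H b h1
  · rw [List.mem_singleton.1 h1]
    have h2 : ∀ c ∈ exF, ∃ e ∈ ex, ∀ j ∈ e, j ∈ c := by decide
    intro c hc
    obtain ⟨e, he, h3⟩ := h2 c hc
    obtain ⟨j, hj, hl⟩ := h e he
    exact ⟨j, h3 j hj, hl⟩

@B- **step** @E
theorem step (A : Ax G S) (H : ∀ c ∈ inv, Hd (val S) c) : ∀ c ∈ inv, Hd (val S) (c.map nxl) := by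
  have h1 := List.forall_mem_cons.1 H
  exact List.forall_mem_cons.2 ⟨f1 A, hns_flat.1 (stepB A (hx h1.1 (hds_flat.2 h1.2)))⟩
''')
    else: o.append('@B- **step** @E\ntheorem step (A : Ax G S) (H : ∀ c ∈ inv, Hd (val S) c) : ∀ c ∈ inv, Hd (val S) (c.map nxl) :=\n  hns_flat.1 (stepB A (hds_flat.2 H))\n')
    fs,ft,ix,C=emit.mkcert(G,'e',0,R['e',0],ixmap)
    o.append('theorem e0 : fns G B [%s]\n    [%s]\n    %s %s = true := by\n  decide +kernel\n'%(', '.join(fs),', '.join(ft),emit.lst(ix),C.args()))
    AS='(A : ∀ f : CS, f.ok G = true → Hd (val S) (f.cl G))'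
    o.append('@B- **end** @E\ntheorem fin %s\n    (A2 : ∀ f : CB, f.ok G = true → Hd (val S) (f.cl G)) : ¬ ∀ c ∈ inv, Hd (val S) c :=\n  fun H => fns_sound A A2 e0 (hds_flat.2 %s)\n'%(AS,'(List.forall_mem_cons.1 H).2' if ex else 'H'))
    E=[]
    for j,i in enumerate(ini_rest):
        fs,ft,ix,C=emit.mkcert(G,'i',i,IR['i',i],ixmap); c=emit.lst(G['ginv'][i]); E.append(c)
        if units:
            o.append('theorem i%d : stu G units [%s]\n    [%s]\n    %s %s = true := by\n  decide +kernel\n'%(j,', '.join(fs),', '.join(ft),c,C.args()))
            o.append('theorem j%d %s\n    (A2 : ∀ f : CI, f.ok G = true → Hd (val S) (f.cl G)) (hU : ∀ c ∈ units, Hd (val S) c) :\n    Hd (val S) %s :=\n  stu_sound A A2 hU i%d\n'%(j,AS,c,j))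
            continue
        o.append('theorem i%d : sts G [%s]\n    [%s]\n    %s %s = true := by\n  decide +kernel\n'%(j,', '.join(fs),', '.join(ft),c,C.args()))
        o.append('theorem j%d %s\n    (A2 : ∀ f : CI, f.ok G = true → Hd (val S) (f.cl G)) : Hd (val S) %s :=\n  sts_sound A A2 i%d\n'%(j,AS,c,j))
    o.append('@B- clauses which hold at the start @E\ndef E : List (List ℕ) :=\n  ['+',\n   '.join(E)+']\n')
    if units and not ex: o.append('@B- the start word @E\ndef units : List (List ℕ) := %s\n'%emit.lst2(units))
    o.append('theorem ini_ok : ini G [%s]\n    %s B = true := by\n  decide +kernel\n'%(', '.join(emit.term(G['facts'][k][1]) for k in ini_used),'(units ++ E)' if units else 'E'))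
    o.append('theorem hE %s\n    (A2 : ∀ f : CI, f.ok G = true → Hd (val S) (f.cl G))%s : ∀ e ∈ E, Hd (val S) e :=\n  '%(AS,' (hU : ∀ c ∈ units, Hd (val S) c)' if units else '')+''.join('List.forall_mem_cons.2 ⟨j%d A A2%s, '%(j,' hU' if units else '') for j in range(len(E)))+('(by simp)' if E else '(fun e he => absurd (show e ∈ ([] : List (List ℕ)) from he) (by simp))')+'⟩'*len(E)+'\n')
    if ex and units:
        hU=' (hU : ∀ e ∈ units, Hd (val S) e)'
        o.append('@B- **start** @E\ntheorem start0 (A : Ax G S) (A2 : ∀ f : CI, f.ok G = true → Hd (val S) (f.cl G))\n   %s :\n    Hds (val S) B :=\n  ini_sound A2 (fun e he => (List.mem_append.1 he).elim (hU e) (hE A.s A2 hU e)) ini_ok\n'%hU)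
        o.append('@B- **after the first instant** @E\ntheorem start (A : Ax G S) (A2 : ∀ f : CI, f.ok G = true → Hd (val S) (f.cl G))\n    (hX : ∀ c ∈ ex, Hd (val S) c)%s : ∀ c ∈ inv, Hd (val S) (c.map nxl) :=\n  List.forall_mem_cons.2 ⟨f1 A, hns_flat.1 (stepB A (hx2 hX (start0 A A2 hU)))⟩\n'%hU)
        o.append('end\n\nend %s\n'%mod)
        open(outdir+'/Main.lean','w').write('\n'.join(o))
        print(ns,'clauses',len(order),'blocks',nb,'hints',tot,'facts',nf,'size',sum(os.path.getsize(outdir+'/'+f) for f in os.listdir(outdir)))
        return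
    if ex:
        o.append('@B- **start** @E\ntheorem start0 (A : Ax G S) (A2 : ∀ f : CI, f.ok G = true → Hd (val S) (f.cl G)) :\n    Hds (val S) B :=\n  ini_sound A2 (hE A.s A2) ini_ok\n')
        o.append('@B- **after the first instant** @E\ntheorem start (A : Ax G S) (A2 : ∀ f : CI, f.ok G = true → Hd (val S) (f.cl G))\n    (hX : ∀ c ∈ ex, Hd (val S) c) : ∀ c ∈ inv, Hd (val S) (c.map nxl) :=\n  List.forall_mem_cons.2 ⟨f1 A, hns_flat.1 (stepB A (hx2 hX (start0 A A2)))⟩\n')
        o.append('end\n\nend %s\n'%mod)
        open(outdir+'/Main.lean','w').write('\n'.join(o))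
        print(ns,'clauses',len(order),'blocks',nb,'hints',tot,'facts',nf,'size',sum(os.path.getsize(outdir+'/'+f) for f in os.listdir(outdir)))
        return
    hU=' (hU : ∀ e ∈ units, Hd (val S) e)' if units else ''
    a='(fun e he => (List.mem_append.1 he).elim (hU e) (hE A.s A2 e))' if units else '(hE A.s A2)'
    o.append('@B- **start** @E\ntheorem start0 (A : Ax G S) (A2 : ∀ f : CI, f.ok G = true → Hd (val S) (f.cl G))%s :\n    ∀ c ∈ inv, Hd (val S) c :=\n  hds_flat.1 (ini_sound A2 %s ini_ok)\n'%(hU,a))
    o.append('@B- **after the first instant** @E\ntheorem start (A : Ax G S) (A2 : ∀ f : CI, f.ok G = true → Hd (val S) (f.cl G))%s :\n    ∀ c ∈ inv, Hd (val S) (c.map nxl) :=\n  step A (start0 A A2%s)\n'%(hU,' hU' if units else ''))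
    o.append('end\n\nend %s\n'%mod)
    open(outdir+'/Main.lean','w').write('\n'.join(o))
    print(ns,'clauses',len(order),'blocks',nb,'hints',tot,'facts',nf,'size',sum(os.path.getsize(outdir+'/'+f) for f in os.listdir(outdir)))

## FILE cover.py
import sys,collections
from names import *
def clauses(W,num):
    @Q@Q@Qlist of (sort, tag, python clause, global clause or None)@Q@Q@Q
    C=W.C; g={}
    froz={}
    for a,b,nm in C.lat:
        pass
    code={v:num.code(nm) for v,nm in C.nm.items()}
    def glob(c):
        r=set()
        for l in c: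
            x=code[abs(l)]
            if x is None: return None
            r.add(2*x+(1 if l<0 else 0))
        return frozenset(r)
    out=[]
    for ty,cl,tg in (('CS',C.st,C.stt),('CL',C.cl,C.ct),('CL',[c for _,c in C.de],C.det),('CI',C.ini,C.init),('CB',C.bad,C.badt)):
        for c,t in zip(cl,tg):
            out.append((ty,t,c,glob(c)))
    return out,code
def find(D,idx,ty,g):
    @Q@Q@Qlook up exact, then subset@Q@Q@Q
    tys={'CS':('CS',),'CL':('CL','CS'),'CI':('CI','CS'),'CB':('CB','CS')}[ty]
    for y in tys:
        if (y,g) in D: return D[(y,g)]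
    for y in tys:
        for l in g:
            for c in idx.get((y,l),()):
                if c<=g: return D[(y,c)]
    return None
def mkidx(D):
    idx={}
    for (ty,c) in D:
        if not c: continue
        l=min(c); 
        idx.setdefault((ty,l),[]).append(c)
    return idx
def cover(W,num,D,verbose=True):
    idx=mkidx(D)
    cl,code=clauses(W,num); miss=collections.Counter(); ex={}; tot=collections.Counter(); res=[]
    for (ty,t,c,g) in cl:
        tot[(ty,t[0])]+=1
        if t[0]=='frozen': res.append(None); continue
        if g is None: miss[(ty,t[0],'noname')]+=1; ex.setdefault((ty,t[0],'noname'),[W.C.nm[abs(l)] for l in c if code[abs(l)] is None]); res.append(None); continue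
        if any((x^1) in g for x in g): res.append('taut'); continue
        f=find(D,idx,ty,g)
        res.append(f)
        if f is None: miss[(ty,t[0],'nofact')]+=1; ex.setdefault((ty,t[0],'nofact'),[(('' if l>0 else '~')+'.'.join(map(str,W.C.nm[abs(l)]))) for l in c])
    if verbose:
        for k,v in sorted(miss.items(),key=str): print(k,v,'of',tot[k[:2]],ex[k])
        print('clauses',len(cl),'missing',sum(miss.values()))
    return cl,code,res

## FILE run_s2m.py
import sys,time,pickle,os
sys.path.insert(0,'/tmp/conv'); sys.path.insert(0,'/tmp/r242/notes/H242s5')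
import s5,names,prep,extract,root,root2,cover,blk
from multiprocessing import Pool
WORDS='efPeQf efPfQf efPfef efefQf efefef fePeQe fePefe fePfQe fefeQe fefefe'.split()
def world():
    W=s5.get('S2nd'); num=names.Num(W); num.rid['y']=2
    C=W.C; code={v:num.code(n_) for v,n_ in C.nm.items()}
    assert all(c is not None for c in code.values())
    kk=[i for i,t in enumerate(C.ct) if t[0] not in ('hyp','hypAC')]; C.cl=[C.cl[i] for i in kk]; C.ct=[C.ct[i] for i in kk]
    return W,num,code
EXH=[[2*(48+6*2+0)],[2*(48+6*2+1)],[2*(48+6*4+2)],[2*(48+6*4+3)]]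
def units(w):
    return [[2*(380+4*k+'efPQ'.index(ch))] for k,ch in enumerate(WORDS[w])]
if __name__=='__main__':
    w=int(sys.argv[1]); invf=sys.argv[2]; rounds=int(sys.argv[3]); bs=int(sys.argv[4]); ns='S2m.W%d'%w; out='S2m_W%d'%w
    W,num,code=world()
    facts,inv=prep.prep(W,num,'/tmp/conv/facts_s2n.txt',invf,None,allow_py=False)
    known=set(code.values()); n0=len(facts)
    facts=[f for f in facts if all(x//2 in known for x in f[2])]
    inv=[c for c in inv if c!=[1105]]
    UA=[[2*(380+4*k+l)+(0 if WORDS[w][k]=='efPQ'[l] else 1)] for k in range(6) for l in range(4)]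
    inv=UA+[c for c in inv if c not in UA]
    pk='/tmp/conv/%s.pkl'%out
    G=prep.build(facts,inv,704,pk)
    v={c:i+1 for i,c in enumerate(G['codes'])}; dim=lambda c:[(v[x//2] if x%2==0 else -v[x//2]) for x in c]
    G['ginvx']=[[1105]+c for c in EXH]; G['ex']=[dim(c) for c in G['ginvx']]
    U=units(w); G['gun']=U; G['un']=[dim(c) for c in U]
    pickle.dump(G,open(pk,'wb')); print(out,WORDS[w],'facts',n0,'->',len(facts),'inv',len(inv),'vars',G['n'],flush=True)
    R=root.extract_all(G,pk,rounds)
    need=root.closure(R); print('needed',len(need),'hints',sum(R['s',i][0] for i in need))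
    iu,ir=root.inicheck(G,need,U); print('ini facts',len(iu),'rest',len(ir),flush=True)
    IR={}
    with Pool(4,initializer=extract.init,initargs=(pk,)) as P:
        for kind,i,b in P.imap_unordered(extract.task,[('i',i,8) for i in ir]): IR[kind,i]=b; assert b,('init',i)
    pickle.dump((R,need,iu,ir,IR,EXH,U),open('/tmp/conv/%s.res'%out,'wb'))
    root2.write(G,R,need,ns,'/workdir/vale/Vale/Agent/P032/R2/H805/S2m/W%d'%w,'import Vale.Agent.P032.R2.H137.Roots\n','Vale.Agent.P032.R2.H137.rdS2n',iu,ir,IR,'root S2m, start word %d'%w,bs,ex=EXH,units=U)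

## FILE inc2.py
# inc2.py: roots with 242's incremental extraction (incx); modules of several b-blocks with one table
import sys,os,pickle,time,subprocess
sys.path.insert(0,'/tmp/conv')
import names,prep,emit,extract
from emit import term,lst,lst2
from prep import nxl
from root import HDR
from multiprocessing import Pool
INCX='/tmp/inc/incx'
def runinc(prem,targets,n,rounds,seed,tag):
    f='/tmp/inc/%s.in'%tag; g='/tmp/inc/%s.out'%tag
    with open(f,'w') as o:
        o.write('n %d\n'%n); o.write(''.join('b '+' '.join(map(str,c))+' 0\n' for c in prem)); o.write(''.join('t '+' '.join(map(str,c))+' 0\n' for c in targets))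
    r=subprocess.run([INCX,f,g,str(rounds),str(seed)],capture_output=True,text=True)
    used=[];steps=[];res={}
    for l in open(g):
        t=l.split()
        if t[0]=='u': used+=[int(x) for x in t[1:]]
        elif t[0]=='s':
            k=t.index('0',2); steps.append((int(t[1]),[int(x) for x in t[2:k]],[int(x) for x in t[k+1:-1]]))
        elif t[0]=='r': res[int(t[1])]=int(t[2])
    os.remove(f); os.remove(g)
    return used,steps,res,r.stdout.strip().split('\n')[-1]
def check(prem,targets,used,steps,res):
    cl={x:prem[x] for x in used}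
    for sid,l,h in steps:
        a=set(-x for x in l); ok=False
        for k,i in enumerate(h):
            rem=[x for x in cl[i] if -x not in a]
            if not rem: ok=(k==len(h)-1); break
            if len(rem)>1: return False
            a.add(rem[0])
        if not ok: return False
        cl[sid]=l
    return all(t in res and set(cl[res[t]])<=set(targets[t]) for t in range(len(targets)))
def one(a):
    prem,targets,n,rounds,seed,tag=a
    best=None
    for s in range(seed,seed+rounds):
        used,steps,res,msg=runinc(prem,targets,n,1,s,tag)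
        if len(res)<len(targets): print('MISSING targets',tag,[t for t in range(len(targets)) if t not in res][:5],flush=True); continue
        h=sum(len(x[2])+1 for x in steps); c=h+60*len(used)+40*len(steps)
        if best is None or c<best[0]: best=(c,h,used,steps,res)
    if best is None: return None
    c,h,used,steps,res=best
    assert check(prem,targets,used,steps,res),tag
    return best
def mkD(G,A,best,bls,ixmap,ginv):
    @Q@Q@QA: premise tags ('F',k)/('V',k); bls: list of lists of clause numbers (b-blocks); targets in that order@Q@Q@Q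
    c,h,used,steps,res=best
    facts=G['facts']; codes=G['codes']
    glob=lambda x:2*codes[abs(x)-1]+(1 if x<0 else 0)
    fs=sorted([u for u in used if A[u][0]=='F' and facts[A[u][1]][0]=='CS'],key=lambda u:A[u][1])
    ft=sorted([u for u in used if A[u][0]=='F' and facts[A[u][1]][0]!='CS'],key=lambda u:A[u][1])
    iv=sorted([u for u in used if A[u][0]=='V'],key=lambda u:A[u][1])
    order=fs+ft+iv; pos={u:k for k,u in enumerate(order)}; a0=len(order)
    cl=[sorted(facts[A[u][1]][2]) if A[u][0]=='F' else sorted(set(ginv[A[u][1]])) for u in order]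
    hints=[]
    for sid,l,hh in steps:
        pos[sid]=len(cl); cl.append(sorted(set(glob(x) for x in l))); hints.append([pos[x] for x in hh])
    seen={}; cod=[]
    for cc in cl:
        for x in cc:
            if x//2 not in seen: seen[x//2]=len(cod); cod.append(x//2)
    N=len(cod); W=sum(c<<(12*i) for i,c in enumerate(cod)); assert all(c<4096 for c in cod)
    loc=lambda x:2*seen[x//2]+x%2
    ls=[[loc(x) for x in cc] for cc in cl[:a0]]
    M=[sum(1<<(seen[x//2]+(N if x%2 else 0)) for x in cc) for cc in cl]
    K=len(M); w=max(2,K.bit_length()); L=2*N; rds=[]; t=0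
    for bl in bls:
        r=[]
        for i in bl:
            p=pos[res[t]]; r.append((p,[loc(x) for x in cl[p]])); t+=1
        rds.append(r)
    return dict(fs=[term(facts[A[u][1]][1]) for u in fs],ft=[term(facts[A[u][1]][1]) for u in ft],ix=[ixmap[A[u][1]] for u in iv],a=a0,K=K,N=N,W=W,ls=ls,M=M,h=hints,w=w,L=L,rds=rds)
def emit_multi(D,bn,pre,mod,title,mname,Bname,segh=40000,axn=400):
    @Q@Q@Qbn: numbers of the b-blocks; pre: name of the namespace (Blk / Sta); mname: number of the module@Q@Q@Q
    o=['import %s.Base\nimport Vale.Agent.P032.R2.H805.Blk\n'%mod,'@B!\n# P032: %s: module %s\n@E\n'%(title,mname),HDR,'namespace %s.%s%s\n'%(mod,pre,mname),'open Vale.Agent.P032.R2.H741.Tp\nopen Vale.Agent.P032.R2.H805.Step\nopen Vale.Agent.P032.R2.H805.Rup\n']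
    K=D['K']; L=D['L']; N=D['N']; M=D['M']; w=D['w']; a=D['a']
    depth=0
    while (((K>>depth)+1)*L>32768) and (K>>depth)>1: depth+=1
    blocks=[]
    def build(idx,dep):
        if dep==0:
            x=0
            for k,h in enumerate(idx): x|=M[h]<<(L*k)
            blocks.append(x); return '(.leaf t%d)'%(len(blocks)-1)
        return '(.node %s %s)'%(build(idx[0::2],dep-1),build(idx[1::2],dep-1))
    rootT=build(list(range(K)),depth)
    for k,x in enumerate(blocks): o.append('@B- part of the table @E\ndef t%d : ℕ := %s'%(k,hex(x)))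
    o.append('@B- the table @E\ndef tab : Tab := %s\n'%rootT)
    o.append('@B- the local variables @E\ndef W : ℕ := %s\n'%hex(D['W']))
    seq=[('s',f) for f in D['fs']]+[('l',f) for f in D['ft']]+[('i',x) for x in D['ix']]
    assert len(seq)==a
    parts=[(x,min(a,x+axn)) for x in range(0,a,axn)]
    for j,(x,y) in enumerate(parts):
        sub=seq[x:y]
        o.append('theorem ld%d : ldb G %s [%s]\n    [%s]\n    [%s] W\n    %s\n    %d tab %d %d = true := by\n  decide +kernel\n'%(j,Bname,', '.join(f for t,f in sub if t=='s'),', '.join(f for t,f in sub if t=='l'),', '.join(str(f) for t,f in sub if t=='i'),lst2(D['ls'][x:y]),N,x,y))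
    segs=[]; cur=[]; i0=a; i=a
    for h in D['h']:
        hh=[x+1 for x in h]+[0]
        if cur and len(cur)+len(hh)>segh: segs.append((i0,i,cur)); cur=[]; i0=i
        cur+=hh; i+=1
    if cur: segs.append((i0,i,cur))
    assert i==K
    cn=0; tot=0
    for j,(x,y,digs) in enumerate(segs):
        m0=max(1,1536//w); T=len(digs); pieces=max(1,-(-T//m0)); tot+=T
        if pieces<=16: q=pieces; m=-(-T//q)
        else: q=16; m=m0
        Dg=q*m; nm=[]
        for t in range(0,T,Dg):
            c=0
            for t_,g in enumerate(digs[t:t+Dg]): c|=g<<(w*t_)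
            nm.append('c%d'%cn); o.append('@B- code @E\ndef c%d : ℕ := %s'%(cn,hex(c))); cn+=1
        o.append('theorem g%d : seg %d %d %d %d tab [%s] %d %d = true := by decide +kernel\n'%(j,N,w,m,q,', '.join(nm),x,y))
    o.append('@B- all clauses of the table hold @E\ntheorem okt {S : Sem} (A : Ax G S) (H : Hds (val S) %s) : Ok %d (lv (val S) W) tab %d := by'%(Bname,N,K))
    o.append('  have h0 : Ok %d (lv (val S) W) tab 0 := ok_zero'%N)
    k=0
    for j in range(len(parts)): o.append('  have h%d := ldb_sound A H ld%d h%d'%(k+1,j,k)); k+=1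
    for j in range(len(segs)): o.append('  have h%d := seg_sound g%d h%d'%(k+1,j,k)); k+=1
    o.append('  exact h%d\n'%k)
    for b,rd in zip(bn,D['rds']):
        o.append('theorem rd%d : rdb W %d tab %d b%d [%s] = true := by decide +kernel\n'%(b,N,K,b,', '.join('(%d, %s)'%(p,lst(c)) for p,c in rd)))
        o.append('@B- the clauses of block %d hold after the instant @E\ntheorem blk%d {S : Sem} (A : Ax G S) (H : Hds (val S) %s) : ∀ c ∈ b%d, Hd (val S) (c.map nxl) :=\n  rdb_sound (okt A H) rd%d\n'%(b,b,Bname,b,b))
    o.append('end %s.%s%s\n'%(mod,pre,mname))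
    return '\n'.join(o),tot
def load(W,num,factsfn,invfn,extra,name,addfirst=True,addinv=()):
    facts,inv=prep.prep(W,num,factsfn,invfn,None,allow_py=False)
    inv=[list(c) for c in addinv if list(c) not in inv]+inv
    if addfirst and [1105] not in inv: inv=inv+[[1105]]
    pk='/tmp/conv/%s.pkl'%name
    GG=prep.build(facts,inv,704,pk)
    b0g=[sorted(facts[k][2]) for k in GG['ini']]+[list(c) for c in extra]
    v={c:i+1 for i,c in enumerate(GG['codes'])}
    for c in b0g:
        for x in c: assert x//2 in v,(x,c)
    GG['b0g']=b0g; GG['b0']=[[v[x//2] if x%2==0 else -v[x//2] for x in c] for c in b0g]; GG['nci']=len(GG['ini'])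
    print(name,'facts',len(facts),'inv',len(inv),'vars',GG['n'],'b0',len(b0g),flush=True)
    return GG
def build(GG,extra,ns,outdir,rdimport,rdname,title,per=256,sper=1024,rounds=4,procs=4,mod=None,order=None):
    mod=mod or 'Vale.Agent.P032.R2.H741.'+ns; os.makedirs(outdir,exist_ok=True)
    for f in os.listdir(outdir):
        if f.endswith('.lean'): os.remove(outdir+'/'+f)
    base=GG['base']; FA=[('F',k) for k in GG['st']]+[('F',k) for k in GG['tr']]; n=GG['n']; n0=len(GG['inv'])
    order=list(range(n0)) if order is None else order
    blocks=[order[k:k+64] for k in range(0,len(order),64)]; nb=len(blocks)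
    ixmap={i:64*(k//64)+k%64 for k,i in enumerate(order)}
    # step
    A=FA+[('V',k) for k in order]; prem=[base[k] for t,k in FA]+[GG['inv'][k] for k in order]
    extract.G=GG; kind,i,bend=extract.task(('e',0,6)); assert bend is not None,'END FAILS'
    g=max(1,per//64); mods=[blocks[k:k+g] for k in range(0,nb,g)]
    g2=max(1,sper//64); smods=[blocks[k:k+g2] for k in range(0,nb,g2)]
    A0=FA+[('V',n0+k) for k in range(len(GG['b0']))]; prem0=[base[k] for t,k in FA]+GG['b0']
    jobs=[(prem,[GG['invn'][i] for bl in m for i in bl],n,rounds,1,'%s_p%d'%(ns,k)) for k,m in enumerate(mods)]+[(prem0,[GG['invn'][i] for bl in m for i in bl],n,rounds,1,'%s_s%d'%(ns,k)) for k,m in enumerate(smods)]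
    t=time.time()
    with Pool(procs) as P: Rs=P.map(one,jobs,chunksize=1)
    assert all(r is not None for r in Rs)
    print('extracted %.0fs'%(time.time()-t),[ (r[1],len(r[2]),len(r[3])) for r in Rs],flush=True)
    RP=Rs[:len(mods)]; RS=Rs[len(mods):]
    used=sorted({A0[u][1] for r in RS for u in r[2] if A0[u][0]=='V'})
    ix0={u:64*(k//64)+k%64 for k,u in enumerate(used)}; uci=[u for u in used if u-n0<GG['nci']]
    GS=GG['ginv']+GG['b0g']
    op='open Vale.Agent.P032.R2.H741.Tp\nopen Vale.Agent.P032.R2.H805.Step\n'
    o=[rdimport+'import Vale.Agent.P032.R2.H805.Step\n','@B!\n# P032: %s: the invariant\n@E\n'%title,HDR,'namespace %s\n'%mod,op]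
    o.append('@B- the rings @E\nabbrev G : RD := %s\n'%rdname)
    for b,bl in enumerate(blocks):
        o.append('@B- block %d of the invariant @E\ndef b%d : List (List ℕ) :=\n  ['%(b,b)+',\n   '.join(lst(GG['ginv'][i]) for i in bl)+']\n')
    o.append('@B- the invariant in blocks @E\ndef B : List (List (List ℕ)) := ['+', '.join('b%d'%b for b in range(nb))+']\n')
    o.append('@B- the invariant @E\ndef inv : List (List ℕ) := B.flatten\n')
    o.append('@B- clauses about the first instant @E\ndef ex : List (List ℕ) := %s\n'%lst2(extra))
    us=[used[k:k+64] for k in range(0,len(used),64)]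
    o.append('@B- clauses which hold just before the first instant, and `ex` @E\ndef B0 : List (List (List ℕ)) :=\n  ['+',\n   '.join('['+', '.join(lst(GG['b0g'][u-n0]) for u in x)+']' for x in us)+']\n')
    o.append('theorem inv_st : ∀ c ∈ inv, ∀ j ∈ c, j / 2 < 704 * (G.R + G.Y) ∧ isSt (j / 2 % 704) = true :=\n  stc_sound (by decide +kernel)\n')
    o.append('end %s\n'%mod)
    open(outdir+'/Base.lean','w').write('\n'.join(o))
    nn=[]; tot=0
    for k,(m,r) in enumerate(zip(mods,RP)):
        D=mkD(GG,A,r,m,ixmap,GS); s,t=emit_multi(D,[k*g+j for j in range(len(m))],'Blk',mod,title,str(k),'B'); tot+=t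
        open(outdir+'/P%d.lean'%k,'w').write(s); nn.append('P%d'%k); print('P%d'%k,'targets',sum(len(x) for x in m),'axioms',D['a'],'K',D['K'],'N',D['N'],'hints',t,'size',len(s),flush=True)
    for k,(m,r) in enumerate(zip(smods,RS)):
        D=mkD(GG,A0,r,m,ix0,GS); s,t=emit_multi(D,[k*g2+j for j in range(len(m))],'Sta',mod,title,str(k),'B0'); tot+=t
        open(outdir+'/S%d.lean'%k,'w').write(s); nn.append('S%d'%k); print('S%d'%k,'targets',sum(len(x) for x in m),'axioms',D['a'],'K',D['K'],'N',D['N'],'hints',t,'size',len(s),flush=True)
    o=['import %s.%s'%(mod,m) for m in nn]+['','@B!\n# P032: %s: start, step, end\n@E\n'%title,HDR,'namespace %s\n'%mod,op+'open Vale.Agent.P032.R2.H805.Rup\n','section\n','variable {S : Sem}\n']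
    def chain(pre,gg): return '\n  '.join('hns_cons (%s%d.blk%d A H) ('%(pre,b//gg,b) for b in range(nb))+'hns_nil'+')'*nb
    o.append('theorem stepB (A : Ax G S) (H : Hds (val S) B) : Hns (val S) B :=\n  '+chain('Blk',g)+'\n')
    o.append('@B- **step** @E\ntheorem step (A : Ax G S) (H : ∀ c ∈ inv, Hd (val S) c) : ∀ c ∈ inv, Hd (val S) (c.map nxl) :=\n  hns_flat.1 (stepB A (hds_flat.2 H))\n')
    # end
    R={('e',0):bend}
    fs,ft,ix,C=emit.mkcert(GG,'e',0,R['e',0],ixmap)
    o.append('theorem e0 : fns G B [%s]\n    [%s]\n    %s %s = true := by\n  decide +kernel\n'%(', '.join(fs),', '.join(ft),lst(ix),C.args()))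
    AS='(A : ∀ f : CS, f.ok G = true → Hd (val S) (f.cl G))'
    o.append('@B- **end** @E\ntheorem fin %s\n    (A2 : ∀ f : CB, f.ok G = true → Hd (val S) (f.cl G)) : ¬ ∀ c ∈ inv, Hd (val S) c :=\n  fun H => fns_sound A A2 e0 (hds_flat.2 H)\n'%AS)
    o.append('theorem startB (A : Ax G S) (H : Hds (val S) B0) : Hns (val S) B :=\n  '+chain('Sta',g2)+'\n')
    o.append('theorem ini_ok : ini G [%s]\n    ex B0 = true := by\n  decide +kernel\n'%(', '.join(term(GG['facts'][GG['ini'][u-n0]][1]) for u in uci)))
    o.append('@B- **after the first instant** @E\ntheorem start (A : Ax G S) (A2 : ∀ f : CI, f.ok G = true → Hd (val S) (f.cl G))\n    (hE : ∀ e ∈ ex, Hd (val S) e) : ∀ c ∈ inv, Hd (val S) (c.map nxl) :=\n  hns_flat.1 (startB A (ini_sound A2 hE ini_ok))\n')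
    o.append('end\n\nend %s\n'%mod)
    open(outdir+'/Main.lean','w').write('\n'.join(o))
    print(ns,'clauses',len(order),'blocks',nb,'hints',tot,'size',sum(os.path.getsize(outdir+'/'+f) for f in os.listdir(outdir)),flush=True)
BLK='/tmp/h470/blkopt'
def oneb(a):
    prem,targets,n,rounds,seed,tag=a
    f='/tmp/inc/%s.in'%tag; g='/tmp/inc/%s.out'%tag
    with open(f,'w') as o:
        o.write('p %d\n'%n); o.write(''.join('a '+' '.join(map(str,c))+' 0\n' for c in prem)); o.write(''.join('t '+' '.join(map(str,c))+' 0\n' for c in targets))
    t0=time.time()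
    r=subprocess.run([BLK,f,g,str(rounds)],capture_output=True,text=True)
    U=[];steps=[];res={};k=0
    for l in open(g):
        t=l.split()
        if not t: continue
        if t[0]=='u': U+=[int(x) for x in t[1:]]
        elif t[0]=='l':
            T=int(t[1]); z=t.index('0',2); lits=[int(x) for x in t[2:z]]; hh=[int(x) for x in t[z+1:]]
            sid=len(prem)+k; k+=1
            steps.append((sid,lits,[U[x] if x<len(U) else len(prem)+x-len(U) for x in hh]))
            if T>=0: res[T]=sid
    h=sum(len(x[2])+1 for x in steps)
    print(tag,'blkopt %.0fs'%(time.time()-t0),'targets',len(targets),'hints',h,'used',len(U),'learned',len(steps),r.stdout.strip().split('\n')[-1][:200],flush=True)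
    miss=[t for t in range(len(targets)) if t not in res]
    if miss: print('MISSING',tag,miss[:10],flush=True); return None
    # a used axiom which is never used
    assert check(prem,targets,U,steps,res),tag
    return (h+60*len(U)+40*len(steps),h,U,steps,res)
if os.environ.get('USEBLK','1')=='1': one=oneb

## FILE root3.py
# root3.py: roots with extra clauses at the first instant (R2A, R2C, S2n).  B0 = clauses CI + extra ; start blocks Sta<k> prove the invariant after the first instant from B0
import sys,os,pickle,time
sys.path.insert(0,'/tmp/conv')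
import names,prep,extract,root,blk,emit
from root import HDR
from multiprocessing import Pool
G=None
def init(pk):
    global G
    G=pickle.load(open(pk,'rb')); extract.G=G
def task(a):
    kind,i,rounds=a
    if kind!='t': return extract.task(a)
    n=G['n']; base=G['base']; n0=len(G['inv']); b0=G['b0']; invn=G['invn']
    A=[('F',k) for k in G['st']]+[('F',k) for k in G['tr']]+[('V',n0+k) for k in range(len(b0))]+[('N',j) for j in range(len(invn[i]))]
    cl=[base[k] for t,k in A[:len(G['st'])+len(G['tr'])]]+b0+[[-l] for l in invn[i]]
    tag='%d_t%d'%(os.getpid(),i)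
    b=extract.core(cl,n,tag,rounds)
    for e in ('cnf','lrat'):
        try: os.remove('/tmp/conv/w/%s.%s'%(tag,e))
        except OSError: pass
    if b is None: return (kind,i,None)
    h,used,steps=b
    return (kind,i,(h,[A[u] for u in used],[cl[u] for u in used],[(sid,l,[(x[0],used.index(x[1])) if x[0]=='o' else x for x in hh]) for sid,l,hh in steps]))
def run(W,num,factsfn,invfn,extra,name,rounds,procs=4,units=(),addfirst=True):
    @Q@Q@Qextra: list of global clauses. returns G,R,need,RT@Q@Q@Q
    facts,inv=prep.prep(W,num,factsfn,invfn,None,allow_py=False)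
    if addfirst: inv=inv+[[1105]]
    pk='/tmp/conv/%s.pkl'%name
    GG=prep.build(facts,inv,704,pk)
    b0g=[sorted(facts[k][2]) for k in GG['ini']]+[list(c) for c in extra]
    v={c:i+1 for i,c in enumerate(GG['codes'])}
    GG['b0g']=b0g; GG['b0']=[[v[x//2] if x%2==0 else -v[x//2] for x in c] for c in b0g]; GG['nci']=len(GG['ini'])
    pickle.dump(GG,open(pk,'wb'))
    print(name,'facts',len(facts),'inv',len(inv),'vars',GG['n'],'b0',len(b0g),flush=True)
    n=len(inv); t0=time.time(); R={}
    with Pool(procs,initializer=init,initargs=(pk,)) as P: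
        for k,(kind,i,b) in enumerate(P.imap_unordered(task,[('e',0,rounds)]+[('s',i,rounds) for i in range(n)],chunksize=1)):
            R[kind,i]=b
            if b is None: print('FAIL',kind,i,GG['ginv'][i] if kind=='s' else '',flush=True)
            if k%100==99: print(k+1,'%.0fs'%(time.time()-t0),'hints',sum(x[0] for x in R.values() if x),flush=True)
    need=root.closure(R); print('needed',len(need),'hints',sum(R['s',i][0] for i in need),flush=True)
    RT={}
    with Pool(procs,initializer=init,initargs=(pk,)) as P:
        for k,(kind,i,b) in enumerate(P.imap_unordered(task,[('t',i,rounds) for i in need],chunksize=1)):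
            RT['s',i]=b
            if b is None: print('FAIL start',i,GG['ginv'][i],flush=True)
            if k%100==99: print(k+1,'%.0fs'%(time.time()-t0),'start hints',sum(x[0] for x in RT.values() if x),flush=True)
    print('start hints',sum(RT['s',i][0] for i in need if RT['s',i]),flush=True)
    pickle.dump((R,need,RT),open('/tmp/conv/%s.res'%name,'wb'))
    return GG,R,need,RT
def write(GG,R,need,RT,extra,ns,outdir,rdimport,rdname,title,bs=64,tbs=64,order=None,mod=None):
    mod=mod or 'Vale.Agent.P032.R2.H741.'+ns; os.makedirs(outdir,exist_ok=True)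
    for f in os.listdir(outdir):
        if f.endswith('.lean'): os.remove(outdir+'/'+f)
    order=list(need) if order is None else order
    nb=-(-len(order)//bs); assert bs<=64
    ixmap={i:64*(k//bs)+k%bs for k,i in enumerate(order)}
    blocks=[order[b*bs:(b+1)*bs] for b in range(nb)]
    n0=len(GG['inv'])
    # used B0
    used=sorted({a[1] for i in order for a in RT['s',i][1] if a[0]=='V'})
    uci=[u for u in used if u-n0<GG['nci']]
    ix0={u:64*(k//64)+k%64 for k,u in enumerate(used)}
    op='open Vale.Agent.P032.R2.H741.Tp\nopen Vale.Agent.P032.R2.H805.Step\n'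
    o=[rdimport+'import Vale.Agent.P032.R2.H805.Step\n','@B!\n# P032: %s: the invariant\n@E\n'%title,HDR,'namespace %s\n'%mod,op]
    o.append('@B- the rings @E\nabbrev G : RD := %s\n'%rdname)
    for b,bl in enumerate(blocks):
        o.append('@B- block %d of the invariant @E\ndef b%d : List (List ℕ) :=\n  ['%(b,b)+',\n   '.join(emit.lst(GG['ginv'][i]) for i in bl)+']\n')
    o.append('@B- the invariant in blocks @E\ndef B : List (List (List ℕ)) := ['+', '.join('b%d'%b for b in range(nb))+']\n')
    o.append('@B- the invariant @E\ndef inv : List (List ℕ) := B.flatten\n')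
    o.append('@B- clauses about the first instant @E\ndef ex : List (List ℕ) := %s\n'%emit.lst2(extra))
    us=[used[k:k+64] for k in range(0,len(used),64)]
    o.append('@B- clauses which hold just before the first instant, and `ex` @E\ndef B0 : List (List (List ℕ)) :=\n  ['+',\n   '.join('['+', '.join(emit.lst(GG['b0g'][u-n0]) for u in x)+']' for x in us)+']\n')
    o.append('theorem inv_st : ∀ c ∈ inv, ∀ j ∈ c, j / 2 < 704 * (G.R + G.Y) ∧ isSt (j / 2 % 704) = true :=\n  stc_sound (by decide +kernel)\n')
    o.append('end %s\n'%mod)
    open(outdir+'/Base.lean','w').write('\n'.join(o))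
    tot=0; nf=0; mods=[]
    for b,bl in enumerate(blocks):
        D=blk.mkblock(GG,R,bl,ixmap); s,t=blk.emit_block(D,b,mod,title,HDR); tot+=t; nf+=D['a']
        open(outdir+'/P%d.lean'%b,'w').write(s); mods.append('P%d'%b)
        print('block',b,'clauses',len(bl),'axioms',D['a'],'K',D['K'],'N',D['N'],'hints',t,'size',len(s),flush=True)
    GS=dict(GG); GS['ginv']=GG['ginv']+GG['b0g']
    tt=0
    for b,bl in enumerate(blocks):
        D=blk.mkblock(GS,RT,bl,ix0); s,t=blk.emit_block(D,b,mod,title,HDR); tt+=t; nf+=D['a']
        s=s.replace('namespace %s.Blk%d'%(mod,b),'namespace %s.Sta%d'%(mod,b)).replace('end %s.Blk%d'%(mod,b),'end %s.Sta%d'%(mod,b)).replace(': ldb G B [',': ldb G B0 [').replace('(H : Hds (val S) B)','(H : Hds (val S) B0)').replace('hold after the instant @E','hold after the first instant @E')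
        open(outdir+'/S%d.lean'%b,'w').write(s); mods.append('S%d'%b)
        print('start block',b,'clauses',len(bl),'axioms',D['a'],'K',D['K'],'N',D['N'],'hints',t,'size',len(s),flush=True)
    o=['import %s.%s'%(mod,m) for m in mods]+['','@B!\n# P032: %s: start, step, end\n@E\n'%title,HDR,'namespace %s\n'%mod,op+'open Vale.Agent.P032.R2.H805.Rup\n','section\n','variable {S : Sem}\n']
    o.append('theorem stepB (A : Ax G S) (H : Hds (val S) B) : Hns (val S) B :=\n  '+'\n  '.join('hns_cons (Blk%d.blk A H) ('%b for b in range(nb))+'hns_nil'+')'*nb+'\n')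
    o.append('@B- **step** @E\ntheorem step (A : Ax G S) (H : ∀ c ∈ inv, Hd (val S) c) : ∀ c ∈ inv, Hd (val S) (c.map nxl) :=\n  hns_flat.1 (stepB A (hds_flat.2 H))\n')
    fs,ft,ix,C=emit.mkcert(GG,'e',0,R['e',0],ixmap)
    o.append('theorem e0 : fns G B [%s]\n    [%s]\n    %s %s = true := by\n  decide +kernel\n'%(', '.join(fs),', '.join(ft),emit.lst(ix),C.args()))
    AS='(A : ∀ f : CS, f.ok G = true → Hd (val S) (f.cl G))'
    o.append('@B- **end** @E\ntheorem fin %s\n    (A2 : ∀ f : CB, f.ok G = true → Hd (val S) (f.cl G)) : ¬ ∀ c ∈ inv, Hd (val S) c :=\n  fun H => fns_sound A A2 e0 (hds_flat.2 H)\n'%AS)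
    o.append('theorem startB (A : Ax G S) (H : Hds (val S) B0) : Hns (val S) B :=\n  '+'\n  '.join('hns_cons (Sta%d.blk A H) ('%b for b in range(nb))+'hns_nil'+')'*nb+'\n')
    o.append('theorem ini_ok : ini G [%s]\n    ex B0 = true := by\n  decide +kernel\n'%(', '.join(emit.term(GG['facts'][GG['ini'][u-n0]][1]) for u in uci)))
    o.append('@B- **after the first instant** @E\ntheorem start (A : Ax G S) (A2 : ∀ f : CI, f.ok G = true → Hd (val S) (f.cl G))\n    (hE : ∀ e ∈ ex, Hd (val S) e) : ∀ c ∈ inv, Hd (val S) (c.map nxl) :=\n  hns_flat.1 (startB A (ini_sound A2 hE ini_ok))\n')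
    o.append('end\n\nend %s\n'%mod)
    open(outdir+'/Main.lean','w').write('\n'.join(o))
    print(ns,'clauses',len(order),'blocks',nb,'hints',tot,'start hints',tt,'facts',nf,'size',sum(os.path.getsize(outdir+'/'+f) for f in os.listdir(outdir)),flush=True)
TOP='''import %(mod)s.Main
import Vale.Agent.P032.R2.H741.TpS

@B!
# P032: %(title)s: the certificate from the facts
@E

set_option autoImplicit false

namespace %(mod)s

open Vale.Agent.P032.R2.H741.Tp
open Vale.Agent.P032.R2.H805.Step

theorem good : goodb G = true := rfl

theorem top_start (S : Sem) (F : SF G S) (F' : TF G S) (F'' : IF G S)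
    (hE : ∀ c ∈ ex, Hd (val S) c) : ∀ c ∈ inv, Hd (val S) (c.map nxl) :=
  start (ax_of good F F') (ci_of good F'') hE

theorem top_step (S : Sem) (F : SF G S) (F' : TF G S) (h : ∀ c ∈ inv, Hd (val S) c) :
    ∀ c ∈ inv, Hd (val S) (c.map nxl) := step (ax_of good F F') h

theorem top_fin (S : Sem) (F : SF G S) (F' : BF G S) : ¬ ∀ c ∈ inv, Hd (val S) c :=
  fin (cs_of good F) (cb_of good F')

end %(mod)s
'''
def top(ns,outdir,title,mod=None):
    mod=mod or 'Vale.Agent.P032.R2.H741.'+ns
    open(outdir+'/Top.lean','w').write(TOP%dict(mod=mod,title=title))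

## FILE r2.py
import sys
sys.path.insert(0,'/tmp/conv'); sys.path.insert(0,'/tmp/s2n')
import s5,names,root3
nm,invf,rounds,bs=sys.argv[1],sys.argv[2],int(sys.argv[3]),int(sys.argv[4])   # nm: R2A / R2C
EX={'R2A':[[120],[122],[144],[146]],'R2C':[[124],[126],[148],[150]],'S2n':[[121,145],[121,147],[123,145],[123,147],[125,149],[125,151],[127,149],[127,151]]}
W=s5.get(nm+'d'); num=names.Num(W); num.rid['y']=1
rd,fn=('Vale.Agent.P032.R2.H137.rdR2','/tmp/conv/facts_r2.txt')
GG,R,need,RT=root3.run(W,num,fn,invf,EX[nm],nm,rounds)
out='/workdir/vale/Vale/Agent/P032/R2/H741/'+nm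
root3.write(GG,R,need,RT,EX[nm],nm,out,'import Vale.Agent.P032.R2.H137.Roots\n',rd,'root '+nm,bs)
root3.top(nm,out,'root '+nm)

## FILE s2m.py
import sys,os
sys.path.insert(0,'/tmp/conv'); sys.path.insert(0,'/tmp/s2n')
import s5,names,inc2,root3
i=int(sys.argv[1]); invf=sys.argv[2]; per=int(sys.argv[3]); rounds=int(sys.argv[4])
W=s5.get('S2nd'); num=names.Num(W); num.rid['y']=len(W.rings); num.ring['y']=object()
UN=[l.split('|')[0].split() for l in open('/tmp/h137z/S2mz.units')]
w=[num.code(W.C.nm[int(x)]) for x in UN[i] if int(x)>0]
EX=[[120],[122],[148],[150]]+[[2*x] for x in w]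
print('word',i,w,EX)
ns='N%d'%i
GG=inc2.load(W,num,'/tmp/conv/facts_s2n.txt',invf,EX,ns,addinv=[[2*x] for x in w])
out='/workdir/vale/Vale/Agent/P032/R2/H741/'+ns
inc2.build(GG,EX,ns,out,'import Vale.Agent.P032.R2.H137.Roots\n','Vale.Agent.P032.R2.H137.rdS2n','root S2m, word %d'%i,per=per,sper=1024,rounds=rounds)
root3.top(ns,out,'root S2m, word %d'%i)

## FILE reemit.py
#!/usr/bin/env python3
# reemit.py DIR MODNS TITLE [seeds] [tl]: reads DIR/Base.lean (805), writes DIR/P0.lean (table, facts, segments, blk of all blocks), patches DIR/Main.lean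
import sys,re,os,pickle,subprocess,time
sys.path.insert(0,'/tmp/conv')
from prep import nxl
from emit import term,lst,lst2
OPT='/tmp/opt/blkopt'
def rdlist(s): return eval(s)
def parse_base(fn):
    t=open(fn).read(); B=[]
    for m in re.finditer(r'def b(\d+) : List \(List ℕ\) :=\s*(\[\[.*?\]\])\n',t,re.S): 
        assert int(m.group(1))==len(B); B.append(eval(m.group(2)))
    m=re.search(r'def exF : List \(List ℕ\) := (\[.*?\])\n',t); exF=eval(m.group(1)) if m else []
    ns=re.search(r'^namespace (\S+)',t,re.M).group(1)
    return B,exF,ns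
def load_used(fpkl):
    return pickle.load(open(fpkl,'rb'))
def derive(facts,B,exF,seeds,tl,tag,wnl=30,wna=15):
    @Q@Q@Qreturns (D)@Q@Q@Q
    fs=[f for f in facts if f[0] in ('CS','CL')]
    ax=[(('F',i),frozenset(f[2])) for i,f in enumerate(fs)]
    nb=len(B)
    for b,bl in enumerate(B):
        for j,c in enumerate(bl): ax.append((('V',64*b+j),frozenset(c)))
    for j,c in enumerate(exF): ax.append((('V',64*nb+j),frozenset(c)))
    tg=[[nxl(x,704) for x in c] for bl in B for c in bl]
    codes=sorted({x//2 for _,c in ax for x in c}|{x//2 for c in tg for x in c}); v={c:i+1 for i,c in enumerate(codes)}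
    dim=lambda x: v[x//2] if x%2==0 else -v[x//2]
    fin='/tmp/opt/%s.in'%tag; fout='/tmp/opt/%s.out'%tag
    with open(fin,'w') as o:
        o.write('p %d\n'%len(codes))
        for _,c in ax: o.write('a '+' '.join(str(dim(x)) for x in sorted(c))+' 0\n')
        for c in tg: o.write('t '+' '.join(str(dim(x)) for x in c)+' 0\n')
    r=subprocess.run([OPT,fin,fout,str(seeds),str(wnl),str(wna),str(tl)],capture_output=True,text=True)
    print(r.stderr[-1500:],r.stdout,flush=True); assert r.returncode==0
    return ax,tg,codes,fout,fs
def build(ax,tg,codes,fout,fs,B):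
    glob=lambda x:2*codes[abs(x)-1]+(1 if x<0 else 0)
    used=[];steps=[]
    for l in open(fout):
        t=l.split()
        if t[0]=='u': used=[int(x) for x in t[1:]]
        else:
            k=t.index('0',2); steps.append((int(t[1]),[int(x) for x in t[2:k]],[int(x) for x in t[k+1:]]))
    def key(u):
        k=ax[u][0]
        if k[0]=='F': return (0 if fs[k[1]][0]=='CS' else 1,k[1])
        return (2,k[1])
    order=sorted(range(len(used)),key=lambda i:key(used[i])); npos={i:k for k,i in enumerate(order)}
    U=len(used); cl=[ax[used[i]][1] for i in order]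
    h2=[]; tp={}
    for k,(t,l,h) in enumerate(steps):
        h2.append([npos[x] if x<U else x for x in h]); cl.append(frozenset(glob(x) for x in l))
        if t>=0: tp[t]=U+k
    # check
    for k,h in enumerate(h2):
        false=set(cl[U+k]); ok=False
        for n_,x in enumerate(h):
            assert x<U+k
            rem=[y for y in cl[x] if y not in false]
            if not rem: ok=(n_==len(h)-1); break
            assert len(rem)==1,(k,'not unit')
            false.add(rem[0]^1)
        assert ok,(k,'no conflict')
    rds=[]; t=0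
    for bl in B:
        rd=[]
        for c in bl:
            p=tp[t]; assert cl[p]<=set(tg[t]); rd.append((p,sorted(cl[p]))); t+=1
        rds.append(rd)
    # numbering of variables by frequency (frequent ones first is irrelevant)
    seen={}; cod=[]
    for c in cl:
        for x in c:
            if x//2 not in seen: seen[x//2]=len(cod); cod.append(x//2)
    N=len(cod); W=sum(c<<(12*i) for i,c in enumerate(cod)); assert all(c<4096 for c in cod)
    loc=lambda x:2*seen[x//2]+x%2
    ls=[[loc(x) for x in sorted(c)] for c in cl[:U]]
    M=[sum(1<<(seen[x//2]+(N if x%2 else 0)) for x in c) for c in cl]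
    K=len(M); w=max(2,K.bit_length())
    kinds=[ax[used[i]][0] for i in order]
    return dict(fs=[term(fs[k[1]][1]) for k in kinds if k[0]=='F' and fs[k[1]][0]=='CS'],ft=[term(fs[k[1]][1]) for k in kinds if k[0]=='F' and fs[k[1]][0]=='CL'],ix=[k[1] for k in kinds if k[0]=='V'],a=U,K=K,N=N,W=W,ls=ls,M=M,h=h2,w=w,L=2*N,rds=[[(p,[loc(x) for x in c]) for p,c in rd] for rd in rds])
HDR='set_option autoImplicit false\nset_option maxRecDepth 100000\n'
def emit(D,mod,title,BX='BX',segh=60000,axn=400,leaf=32768):
    o=['import %s.Base\nimport Vale.Agent.P032.R2.H805.Blk\n'%mod,'@B!\n# P032: %s: all blocks\n@E\n'%title,HDR,'namespace %s\n'%mod,'open Vale.Agent.P032.R2.H741.Tp\nopen Vale.Agent.P032.R2.H805.Step\nopen Vale.Agent.P032.R2.H805.Rup\n']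
    K=D['K']; L=D['L']; N=D['N']; M=D['M']; w=D['w']; a=D['a']
    depth=0
    while (((K>>depth)+1)*L>leaf) and (K>>depth)>1: depth+=1
    blocks=[]
    def bld(idx,dep):
        if dep==0:
            x=0
            for k,h in enumerate(idx): x|=M[h]<<(L*k)
            blocks.append(x); return '(.leaf t%d)'%(len(blocks)-1)
        return '(.node %s %s)'%(bld(idx[0::2],dep-1),bld(idx[1::2],dep-1))
    rootT=bld(list(range(K)),depth)
    for k,x in enumerate(blocks): o.append('@B- part of the table @E\ndef t%d : ℕ := %s'%(k,hex(x)))
    o.append('@B- the table @E\ndef tab : Tab := %s\n'%rootT)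
    o.append('@B- the local variables @E\ndef W : ℕ := %s\n'%hex(D['W']))
    seq=[('s',f) for f in D['fs']]+[('l',f) for f in D['ft']]+[('i',x) for x in D['ix']]
    assert len(seq)==a
    parts=[(x,min(a,x+axn)) for x in range(0,a,axn)]
    for j,(x,y) in enumerate(parts):
        sub=seq[x:y]
        o.append('theorem ld%d : ldb G %s [%s]\n    [%s]\n    [%s] W\n    %s\n    %d tab %d %d = true := by\n  decide +kernel\n'%(j,BX,', '.join(f for t,f in sub if t=='s'),', '.join(f for t,f in sub if t=='l'),', '.join(str(f) for t,f in sub if t=='i'),lst2(D['ls'][x:y]),N,x,y))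
    segs=[]; cur=[]; i0=a; i=a
    for h in D['h']:
        hh=[x+1 for x in h]+[0]
        if cur and len(cur)+len(hh)>segh: segs.append((i0,i,cur)); cur=[]; i0=i
        cur+=hh; i+=1
    if cur: segs.append((i0,i,cur))
    assert i==K
    cn=0; tot=0
    for j,(x,y,digs) in enumerate(segs):
        m0=max(1,1536//w); T=len(digs); pieces=max(1,-(-T//m0)); tot+=T
        if pieces<=16: q=pieces; m=-(-T//q)
        else: q=16; m=m0
        Dg=q*m; names=[]
        for t in range(0,T,Dg):
            c=0
            for t_,g in enumerate(digs[t:t+Dg]): c|=g<<(w*t_)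
            names.append('c%d'%cn); o.append('@B- code @E\ndef c%d : ℕ := %s'%(cn,hex(c))); cn+=1
        o.append('theorem g%d : seg %d %d %d %d tab [%s] %d %d = true := by decide +kernel\n'%(j,N,w,m,q,', '.join(names),x,y))
    o.append('theorem okK {S : Sem} (A : Ax G S) (H : Hds (val S) %s) : Ok %d (lv (val S) W) tab %d := by'%(BX,N,K))
    o.append('  have h0 : Ok %d (lv (val S) W) tab 0 := ok_zero'%N)
    k=0
    for j in range(len(parts)): o.append('  have h%d := ldb_sound A H ld%d h%d'%(k+1,j,k)); k+=1
    for j in range(len(segs)): o.append('  have h%d := seg_sound g%d h%d'%(k+1,j,k)); k+=1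
    o.append('  exact h%d\n'%k)
    for b,rd in enumerate(D['rds']):
        o.append('theorem rd%d : rdb W %d tab %d b%d [%s] = true := by decide +kernel\n'%(b,N,K,b,', '.join('(%d, %s)'%(p,lst(c)) for p,c in rd)))
        o.append('@B- the clauses of block %d hold after the instant @E\ntheorem Blk%d.blk {S : Sem} (A : Ax G S) (H : Hds (val S) %s) :\n    ∀ c ∈ b%d, Hd (val S) (c.map nxl) :=\n  rdb_sound (okK A H) rd%d\n'%(b,b,BX,b,b))
    o.append('end %s\n'%mod)
    return '\n'.join(o),tot
if __name__=='__main__':
    d=sys.argv[1]; outd=sys.argv[2]; title=sys.argv[3]; seeds=int(sys.argv[4]) if len(sys.argv)>4 else 4; tl=float(sys.argv[5]) if len(sys.argv)>5 else 120; fpkl=sys.argv[6] if len(sys.argv)>6 else '/tmp/s2n/facts.pkl'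
    B,exF,ns=parse_base(d+'/Base.lean'); print(ns,'blocks',[len(b) for b in B],'exF',exF)
    facts=load_used(fpkl)[0]
    t0=time.time(); r=derive(facts,B,exF,seeds,tl,ns.split('.')[-1])
    D=build(*r,B); print('K',D['K'],'N',D['N'],'a',D['a'],'w',D['w'],'time',round(time.time()-t0,1))
    s,tot=emit(D,ns,title,BX='BX' if exF else 'B')
    os.makedirs(outd,exist_ok=True); open(outd+'/P0.lean','w').write(s); print('hints',tot,'size',len(s))
    m=open(d+'/Main.lean').read() if os.path.exists(d+'/Main.lean') else None
    if m:
        m2=re.sub(r'^import %s\.P[1-9]\d*\n'%re.escape(ns),'',m,flags=re.M); open(outd+'/Main.lean','w').write(m2)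

-/
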